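import Vale.Agent.P095.Amen.Compare.Basic
import Vale.Agent.P101.KR.Base
import Vale.Agent.P095.Amen.Coin.Ineq

/-!
# P095 Square: states on products and elementary symmetric sums of commuting elements
-/

namespace Vale.Agent.P095.Amen.Square

open Vale.Agent.P101.KR Finset
open scoped CStarAlgebra

noncomputable section

variable {F : Type} [CStarAlgebra F] [PartialOrder F] [StarOrderedRing F] {S t : Set F}

theorem posIn {u : F} (hu : u ∈ Cl S) (h : 0 ≤ u) : PosIn (Cl S) u :=
  Coin.posIn_of_nonneg (isClosed_Cl S) hu h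

/-- The value of an element below a sum of conjugates. -/
theorem dim_le_of_le (d : Dim (Cl S)) {u : F} (hu : 0 ≤ u) (huS : u ∈ Cl S) {m : ℕ}
    (v x : Fin m → F) (hv : ∀ j, 0 ≤ v j) (hvS : ∀ j, v j ∈ Cl S) (hx : ∀ j, x j ∈ Cl S)
    (h : u ≤ ∑ j, star (x j) * v j * x j) : d.d u ≤ ∑ j, d.d (v j) :=
  d.le_sum (posIn huS hu) (fun j => posIn (hvS j) (hv j))
    (Coin.leIn_of_le (isClosed_Cl S) hu huS v x hvS hx h)

theorem dim_le_conj (d : Dim (Cl S)) {u v x : F} (hu : 0 ≤ u) (huS : u ∈ Cl S) (hv : 0 ≤ v)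
    (hvS : v ∈ Cl S) (hx : x ∈ Cl S) (h : u ≤ star x * v * x) : d.d u ≤ d.d v := by
  simpa using dim_le_of_le d hu huS (fun _ : Fin 1 => v) (fun _ => x) (fun _ => hv) (fun _ => hvS)
    (fun _ => hx) (by simpa using h)

omit [PartialOrder F] [StarOrderedRing F] in
theorem map_mem_Cl (φ : Cl t →⋆ₐ[ℂ] F) (h : ∀ x : Cl t, (x : F) ∈ t → φ x ∈ Cl S) :
    ∀ x : Cl t, φ x ∈ Cl S := by
  intro x
  set T : StarSubalgebra ℂ (Cl t) := (Cl S).comap φ
  have hTc : IsClosed (T : Set (Cl t)) :=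
    (isClosed_Cl S).preimage (map_continuous φ : Continuous φ)
  have himg : IsClosed ((T.map (Cl t).subtype : StarSubalgebra ℂ F) : Set F) := by
    rw [StarSubalgebra.coe_map]
    exact ((isClosed_Cl t).isClosedEmbedding_subtypeVal).isClosedMap _ hTc
  have hsub : t ⊆ ((T.map (Cl t).subtype : StarSubalgebra ℂ F) : Set F) := fun a ha =>
    ⟨⟨a, subset_Cl t ha⟩, h _ ha, rfl⟩
  obtain ⟨y, hy, e⟩ := Cl_le himg hsub x.2
  rwa [show y = x from Subtype.ext e] at hy

omit [PartialOrder F] [StarOrderedRing F] in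
theorem list_prod_mem {B : StarSubalgebra ℂ F} {l : List F} (h : ∀ x ∈ l, x ∈ B) : l.prod ∈ B :=
  Submonoid.list_prod_mem B.toSubalgebra.toSubmonoid h

omit [PartialOrder F] [StarOrderedRing F] in
theorem commute_list_prod {a : F} {l : List F} (h : ∀ x ∈ l, Commute a x) : Commute a l.prod := by
  induction l with
  | nil => exact Commute.one_right a
  | cons x l ih =>
    rw [List.prod_cons]
    exact (h x (by simp)).mul_right (ih fun y hy => h y (List.mem_cons_of_mem _ hy))

theorem list_prod_nonneg : ∀ {l : List F}, (∀ x ∈ l, 0 ≤ x) → l.Pairwise Commute → 0 ≤ l.prod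
  | [], _, _ => by simp
  | x :: l, h, hp => by
    rw [List.pairwise_cons] at hp
    rw [List.prod_cons]
    exact (commute_list_prod hp.1).mul_nonneg (h x (by simp))
      (list_prod_nonneg (fun y hy => h y (List.mem_cons_of_mem _ hy)) hp.2)

theorem list_prod_le_one : ∀ {l : List F}, (∀ x ∈ l, 0 ≤ x ∧ x ≤ 1) → l.Pairwise Commute →
    l.prod ≤ 1
  | [], _, _ => by simp
  | x :: l, h, hp => by
    rw [List.pairwise_cons] at hp
    rw [List.prod_cons]
    have h1 := list_prod_le_one (fun y hy => h y (List.mem_cons_of_mem _ hy)) hp.2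
    have hc := commute_list_prod hp.1
    have h2 : 0 ≤ x * (1 - l.prod) :=
      ((Commute.one_right x).sub_right hc).mul_nonneg (h x (by simp)).1 (sub_nonneg.2 h1)
    rw [mul_sub, mul_one, sub_nonneg] at h2
    exact h2.trans (h x (by simp)).2

/-- A bank element times a commuting one. -/
theorem dim_hom_mul (d : Dim (Cl S)) (φ : Cl t →⋆ₐ[ℂ] F) (hφ : ∀ x, φ x ∈ Cl S) {u : Cl t}
    (hu : 0 ≤ (u : F)) (hu' : 0 ≤ φ u) {w : F} (hw0 : 0 ≤ w) (hwS : w ∈ Cl S)
    (hc : ∀ x, Commute (φ x) w) {a b : ℝ} (ha : 0 ≤ a)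
    (hb : ∀ d' : Dim (Cl t), a ≤ d'.d u ∧ d'.d u ≤ b) :
    a * d.d w ≤ d.d (φ u * w) ∧ d.d (φ u * w) ≤ b * d.d w :=
  d.mul_bound φ (posIn hwS hw0) hφ hc (posIn u.2 hu)
    (posIn (mul_mem (hφ u) hwS) ((hc u).mul_nonneg hu' hw0)) ha hb

theorem map_nonneg' (φ : Cl t →⋆ₐ[ℂ] F) {u : Cl t} (hu : 0 ≤ (u : F)) : 0 ≤ φ u := by
  obtain ⟨-, c, hc, huc⟩ := posIn u.2 hu
  rw [show u = star (⟨c, hc⟩ : Cl t) * ⟨c, hc⟩ from Subtype.ext huc, map_mul, map_star]
  exact star_mul_self_nonneg _

/-- Bounds valid for all states of each bank multiply over commuting banks. -/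
theorem dim_list_prod {ι : Type} {t : ι → Set F} (d : Dim (Cl S))
    (φ : ∀ i, Cl (t i) →⋆ₐ[ℂ] F) (hφ : ∀ i x, φ i x ∈ Cl S)
    (hc : ∀ i j, i ≠ j → ∀ x y, Commute (φ i x) (φ j y)) (u : ∀ i, Cl (t i))
    (hu : ∀ i, 0 ≤ (u i : F)) (a b : ι → ℝ) (ha : ∀ i, 0 ≤ a i) (hab : ∀ i, a i ≤ b i)
    (hb : ∀ i, ∀ d' : Dim (Cl (t i)), a i ≤ d'.d (u i) ∧ d'.d (u i) ≤ b i) :
    ∀ l : List ι, l.Nodup → 0 ≤ (l.map fun i => φ i (u i)).prod ∧
      (l.map a).prod ≤ d.d (l.map fun i => φ i (u i)).prod ∧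
      d.d (l.map fun i => φ i (u i)).prod ≤ (l.map b).prod
  | [], _ => by simp [d.one]
  | i :: l, hl => by
    rw [List.nodup_cons] at hl
    obtain ⟨h0, h1, h2⟩ := dim_list_prod d φ hφ hc u hu a b ha hab hb l hl.2
    have hc' : ∀ x, Commute (φ i x) (l.map fun i => φ i (u i)).prod := fun x =>
      commute_list_prod fun z hz => by
        obtain ⟨j, hj, rfl⟩ := List.mem_map.1 hz
        exact hc i j (fun e => hl.1 (e ▸ hj)) _ _
    have hS : (l.map fun i => φ i (u i)).prod ∈ Cl S := list_prod_mem fun z hz => by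
      obtain ⟨j, -, rfl⟩ := List.mem_map.1 hz
      exact hφ j _
    obtain ⟨h3, h4⟩ := dim_hom_mul d (φ i) (hφ i) (hu i) (map_nonneg' _ (hu i)) h0 hS hc'
      (ha i) (hb i)
    simp only [List.map_cons, List.prod_cons]
    refine ⟨(hc' _).mul_nonneg (map_nonneg' _ (hu i)) h0,
      (mul_le_mul_of_nonneg_left h1 (ha i)).trans h3,
      h4.trans (mul_le_mul_of_nonneg_left h2 ((ha i).trans (hab i)))⟩

/-- Elementary symmetric sums of a list. -/
def esym : List F → ℕ → F
  | _, 0 => 1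
  | [], _ + 1 => 0
  | a :: l, k + 1 => esym l (k + 1) + a * esym l k

omit [PartialOrder F] [StarOrderedRing F] in
theorem esym_zero (l : List F) : esym l 0 = 1 := by cases l <;> rfl

omit [PartialOrder F] [StarOrderedRing F] in
theorem esym_mem {B : StarSubalgebra ℂ F} : ∀ {l : List F}, (∀ x ∈ l, x ∈ B) → ∀ k, esym l k ∈ B
  | l, _, 0 => by rw [esym_zero]; exact one_mem B
  | [], _, k + 1 => zero_mem B
  | a :: l, h, k + 1 =>
    add_mem (esym_mem (fun x hx => h x (List.mem_cons_of_mem _ hx)) _)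
      (mul_mem (h a (by simp)) (esym_mem (fun x hx => h x (List.mem_cons_of_mem _ hx)) _))

omit [PartialOrder F] [StarOrderedRing F] in
theorem commute_esym {a : F} : ∀ {l : List F}, (∀ x ∈ l, Commute a x) → ∀ k, Commute a (esym l k)
  | l, _, 0 => by rw [esym_zero]; exact Commute.one_right a
  | [], _, k + 1 => Commute.zero_right a
  | x :: l, h, k + 1 =>
    (commute_esym (fun y hy => h y (List.mem_cons_of_mem _ hy)) _).add_right
      ((h x (by simp)).mul_right (commute_esym (fun y hy => h y (List.mem_cons_of_mem _ hy)) _))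

theorem esym_nonneg : ∀ {l : List F}, (∀ x ∈ l, 0 ≤ x) → l.Pairwise Commute → ∀ k, 0 ≤ esym l k
  | l, _, _, 0 => by rw [esym_zero]; exact zero_le_one
  | [], _, _, k + 1 => le_rfl
  | x :: l, h, hp, k + 1 => by
    rw [List.pairwise_cons] at hp
    exact add_nonneg (esym_nonneg (fun y hy => h y (List.mem_cons_of_mem _ hy)) hp.2 _)
      ((commute_esym hp.1 k).mul_nonneg (h x (by simp))
        (esym_nonneg (fun y hy => h y (List.mem_cons_of_mem _ hy)) hp.2 _))

/-- A sum of commuting elements of `[0, 1]` exceeds `k` only where `k + 1` of them are nonzero. -/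
theorem sum_le_esym : ∀ {l : List F}, (∀ x ∈ l, 0 ≤ x ∧ x ≤ 1) → l.Pairwise Commute → ∀ k : ℕ,
    l.sum ≤ (k : ℝ) • (1 : F) + (l.length : ℝ) • esym l (k + 1)
  | [], _, _, k => by
    simp only [List.sum_nil, List.length_nil, Nat.cast_zero, zero_smul, add_zero]
    exact smul_nonneg (by positivity) zero_le_one
  | a :: l, h, hp, k => by
    rw [List.pairwise_cons] at hp
    have hl : ∀ x ∈ l, 0 ≤ x ∧ x ≤ 1 := fun x hx => h x (List.mem_cons_of_mem _ hx)
    obtain ⟨ha0, ha1⟩ := h a (by simp)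
    have he : ∀ j, 0 ≤ esym l j := esym_nonneg (fun x hx => (hl x hx).1) hp.2
    have hae : ∀ j, 0 ≤ a * esym l j := fun j => (commute_esym hp.1 j).mul_nonneg ha0 (he j)
    simp only [List.sum_cons, List.length_cons, Nat.cast_succ]
    show a + l.sum ≤ (k : ℝ) • (1 : F) + ((l.length : ℝ) + 1) • (esym l (k + 1) + a * esym l k)
    cases k with
    | zero =>
      have h1 := sum_le_esym hl hp.2 0
      simp only [Nat.cast_zero, zero_smul, zero_add, esym_zero, mul_one] at h1 ⊢
      rw [add_smul, one_smul, smul_add]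
      calc a + l.sum ≤ a + (l.length : ℝ) • esym l 1 := add_le_add le_rfl h1
        _ ≤ _ := by
          have h2 : 0 ≤ (l.length : ℝ) • a + esym l 1 :=
            add_nonneg (smul_nonneg (by positivity) ha0) (he 1)
          calc a + (l.length : ℝ) • esym l 1
              ≤ a + (l.length : ℝ) • esym l 1 + ((l.length : ℝ) • a + esym l 1) :=
                le_add_of_nonneg_right h2
            _ = _ := by abel
    | succ k =>
      have h1 := sum_le_esym hl hp.2 (k + 1)
      have h2 := sum_le_esym hl hp.2 k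
      have hsum : Commute a l.sum := by
        have : ∀ {m : List F}, (∀ x ∈ m, Commute a x) → Commute a m.sum := by
          intro m hm
          induction m with
          | nil => exact Commute.zero_right a
          | cons x m ih =>
            rw [List.sum_cons]
            exact (hm x (by simp)).add_right (ih fun y hy => hm y (List.mem_cons_of_mem _ hy))
        exact this hp.1
      set n : ℝ := (l.length : ℝ)
      have hn : 0 ≤ n := by positivity
      have ce : ∀ j, Commute a (esym l j) := commute_esym hp.1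
      have c1 : ∀ r : ℝ, Commute a (r • (1 : F)) := fun r => (Commute.one_right a).smul_right r
      have p1 : 0 ≤ (1 - a) * (((k + 1 : ℕ) : ℝ) • (1 : F) + n • esym l (k + 1 + 1) - l.sum) :=
        ((Commute.one_left _).sub_left (((c1 _).add_right ((ce _).smul_right n)).sub_right
          hsum)).mul_nonneg (sub_nonneg.2 ha1) (sub_nonneg.2 h1)
      have p2 : 0 ≤ a * ((k : ℝ) • (1 : F) + n • esym l (k + 1) - l.sum) :=
        (((c1 _).add_right ((ce _).smul_right n)).sub_right hsum).mul_nonneg ha0 (sub_nonneg.2 h2)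
      have p3 : 0 ≤ esym l (k + 1 + 1) + a * esym l (k + 1) + n • (a * esym l (k + 1 + 1)) :=
        add_nonneg (add_nonneg (he _) (hae _)) (smul_nonneg hn (hae _))
      rw [← sub_nonneg]
      refine le_of_le_of_eq (add_nonneg (add_nonneg p1 p2) p3) ?_
      push_cast
      simp only [sub_mul, one_mul, mul_sub, mul_add, add_smul, smul_add, smul_sub, one_smul, mul_one,
        mul_smul_comm]
      abel

/-- The value of an elementary symmetric sum. -/
theorem dim_esym {ι : Type} {t : ι → Set F} (d : Dim (Cl S)) (u : ∀ i, Cl (t i))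
    (hu : ∀ i, 0 ≤ (u i : F)) (hS : ∀ i, Cl (t i) ≤ Cl S)
    (hc : ∀ i j, i ≠ j → ∀ x ∈ Cl (t i), ∀ y ∈ Cl (t j), Commute x y) {b : ℝ} (hb0 : 0 ≤ b)
    (hb : ∀ i, ∀ d' : Dim (Cl (t i)), d'.d (u i) ≤ b) :
    ∀ (l : List ι), l.Nodup → ∀ k, d.d (esym (l.map fun i => (u i : F)) k) ≤ (l.length * b) ^ k
  | l, _, 0 => by rw [esym_zero, d.one]; simp
  | [], _, k + 1 => by simp [esym, d.zero]
  | i :: l, hl, k + 1 => by
    rw [List.nodup_cons] at hl
    set m := l.map fun i => (u i : F)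
    have hm : ∀ x ∈ m, 0 ≤ x ∧ x ∈ Cl S ∧ ∀ y ∈ Cl (t i), Commute y x := fun x hx => by
      obtain ⟨j, hj, rfl⟩ := List.mem_map.1 hx
      exact ⟨hu j, hS j (u j).2,
        fun y hy => hc i j (fun e => hl.1 (e ▸ hj)) y hy _ (u j).2⟩
    have hpw : m.Pairwise Commute := by
      refine List.pairwise_map.2 ?_
      exact hl.2.imp fun {a b} hab => hc a b hab _ (u a).2 _ (u b).2
    have he : ∀ j, 0 ≤ esym m j := esym_nonneg (fun x hx => (hm x hx).1) hpw
    have heS : ∀ j, esym m j ∈ Cl S := esym_mem fun x hx => (hm x hx).2.1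
    have hec : ∀ y ∈ Cl (t i), ∀ j, Commute y (esym m j) := fun y hy =>
      commute_esym fun x hx => (hm x hx).2.2 y hy
    have hp : 0 ≤ (u i : F) * esym m k := (hec _ (u i).2 k).mul_nonneg (hu i) (he k)
    have hpS : (u i : F) * esym m k ∈ Cl S := mul_mem (hS i (u i).2) (heS k)
    show d.d (esym m (k + 1) + (u i : F) * esym m k) ≤ (((i :: l).length : ℝ) * b) ^ (k + 1)
    refine (d.add_le (posIn (heS _) (he _)) (posIn hpS hp)
      (posIn (add_mem (heS _) hpS) (add_nonneg (he _) hp))).trans ?_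
    have h1 := (dim_hom_mul d (Cl (t i)).subtype (fun x => hS i x.2) (hu i) (hu i) (he k) (heS k)
      (fun x => hec _ x.2 k) le_rfl
      (fun d' => ⟨d'.nonneg (posIn (u i).2 (hu i)), hb i d'⟩)).2
    have i1 := dim_esym d u hu hS hc hb0 hb l hl.2 (k + 1)
    have i2 := mul_le_mul_of_nonneg_left (dim_esym d u hu hS hc hb0 hb l hl.2 k) hb0
    have h2 : d.d ((u i : F) * esym m k) ≤ b * d.d (esym m k) := h1
    have h3 : ((l.length : ℝ) * b) ^ k ≤ (((l.length : ℝ) + 1) * b) ^ k :=
      pow_le_pow_left₀ (by positivity) (by nlinarith) k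
    simp only [List.length_cons, Nat.cast_succ]
    calc _ ≤ ((l.length : ℝ) * b) ^ (k + 1) + b * ((l.length : ℝ) * b) ^ k :=
          add_le_add i1 (h2.trans i2)
      _ = ((l.length : ℝ) * b + b) * ((l.length : ℝ) * b) ^ k := by ring
      _ ≤ (((l.length : ℝ) + 1) * b) * (((l.length : ℝ) + 1) * b) ^ k :=
          mul_le_mul (by linarith) h3 (by positivity) (by positivity)
      _ = _ := by ring

end

end Vale.Agent.P095.Amen.Square
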