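import Vale.Agent.P095.Amen.Square.Guard
import Vale.Agent.P095.Amen.Square.Tools

/-!
# P095 Square: calculus lemmas
-/

namespace Vale.Agent.P095.Amen.Square

open Vale.Agent.P101.KR Finset
open scoped CStarAlgebra

noncomputable section

variable {F : Type} [CStarAlgebra F]

/-- An eigen relation passes to the functional calculus. -/
theorem cfc_mul_eq_smul {a b : F} (ha : IsSelfAdjoint a) {r : ℝ} (h : a * b = r • b) {f : ℝ → ℝ}
    (hf : Continuous f) : cfc f a * b = f r • b := by
  rcases subsingleton_or_nontrivial F with hF | hF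
  · exact Subsingleton.elim _ _
  set R : ℝ := max ‖a‖ |r|
  refine eq_of_forall_dist_le fun ε hε => ?_
  obtain ⟨q, hq⟩ := exists_polynomial_near_of_continuousOn (-R) R f hf.continuousOn
    (ε / (2 * (‖b‖ + 1))) (by positivity)
  have hpol : Polynomial.aeval a q * b = q.eval r • b := by
    clear hq
    induction q using Polynomial.induction_on' with
    | add p p' hp hp' => rw [map_add, add_mul, hp, hp', Polynomial.eval_add, add_smul]
    | monomial n c =>
      have hn : ∀ n : ℕ, a ^ n * b = r ^ n • b := by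
        intro n
        induction n with
        | zero => simp
        | succ n ih => rw [pow_succ, mul_assoc, h, mul_smul_comm, ih, smul_smul, pow_succ, mul_comm r]
      rw [Polynomial.aeval_monomial, Polynomial.eval_monomial, mul_assoc, hn,
        ← Algebra.smul_def, smul_smul]
  have h1 : ‖cfc f a - Polynomial.aeval a q‖ ≤ ε / (2 * (‖b‖ + 1)) := by
    rw [← cfc_polynomial q a ha, ← cfc_sub f q.eval a hf.continuousOn q.continuous.continuousOn]
    refine norm_cfc_le (by positivity) fun t ht => ?_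
    have := (spectrum.norm_le_norm_of_mem ht).trans (le_max_left ‖a‖ |r|)
    rw [Real.norm_eq_abs] at this ⊢
    rw [abs_sub_comm]
    exact (hq t ⟨(abs_le.1 this).1, (abs_le.1 this).2⟩).le
  have h2 : |q.eval r - f r| ≤ ε / (2 * (‖b‖ + 1)) := by
    have := le_max_right ‖a‖ |r|
    exact (hq r ⟨(abs_le.1 this).1, (abs_le.1 this).2⟩).le
  rw [dist_eq_norm, show cfc f a * b - f r • b =
    (cfc f a - Polynomial.aeval a q) * b + (q.eval r - f r) • b by
      rw [sub_mul, hpol, sub_smul]; abel]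
  refine (norm_add_le _ _).trans ?_
  rw [norm_smul, Real.norm_eq_abs]
  have e : ε / (2 * (‖b‖ + 1)) * ‖b‖ ≤ ε / 2 := by
    rw [div_mul_eq_mul_div, div_le_iff₀ (by positivity)]
    nlinarith [norm_nonneg b]
  have := (norm_mul_le _ b).trans (mul_le_mul_of_nonneg_right h1 (norm_nonneg b))
  have := mul_le_mul_of_nonneg_right h2 (norm_nonneg b)
  linarith

theorem cfc_mul_self_eq {a b : F} (ha : IsSelfAdjoint a) (h : a * b = b) {f : ℝ → ℝ}
    (hf : Continuous f) (h1 : f 1 = 1) : cfc f a * b = b := by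
  rw [cfc_mul_eq_smul ha (r := 1) (by rwa [one_smul]) hf, h1, one_smul]

theorem cfc_mul_eq_zero {a b : F} (ha : IsSelfAdjoint a) (h : a * b = 0) {f : ℝ → ℝ}
    (hf : Continuous f) (h0 : f 0 = 0) : cfc f a * b = 0 := by
  rw [cfc_mul_eq_smul ha (r := 0) (by rwa [zero_smul]) hf, h0, zero_smul]

theorem continuous_bump (η : ℝ) : Continuous fun t : ℝ => min 1 (max 0 ((t - η / 2) / (η / 2))) := by
  fun_prop

theorem bump_apply_one {η : ℝ} (hη : 0 < η) {t : ℝ} (ht : η ≤ t) :
    min 1 (max 0 ((t - η / 2) / (η / 2))) = 1 := by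
  refine min_eq_left (le_max_of_le_right ?_)
  rw [le_div_iff₀ (by positivity)]; linarith

theorem bump_apply_zero {η : ℝ} (hη : 0 < η) {t : ℝ} (ht : t ≤ η / 2) :
    min 1 (max 0 ((t - η / 2) / (η / 2))) = 0 := by
  rw [max_eq_left (div_nonpos_of_nonpos_of_nonneg (by linarith) (by positivity)),
    min_eq_right zero_le_one]

/-- `bump η` is a unit for `cut δ`, `η ≤ δ`. -/
theorem bump_mul_cut {η δ : ℝ} (hη : 0 < η) (h : η ≤ δ) (u : F) :
    bump η u * cut δ u = cut δ u := by
  rw [bump, cut, ← cfc_mul _ _ u (continuous_bump η).continuousOn (by fun_prop : Continuous _).continuousOn]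
  refine cfc_congr fun t _ => ?_
  rcases le_total t δ with ht | ht
  · rw [max_eq_right (sub_nonpos.2 ht), mul_zero]
  · rw [bump_apply_one hη (h.trans ht), one_mul]

theorem isSelfAdjoint_cut (δ : ℝ) (u : F) : IsSelfAdjoint (cut δ u) := cfc_predicate _ u

theorem isSelfAdjoint_bump (η : ℝ) (u : F) : IsSelfAdjoint (bump η u) := cfc_predicate _ u

theorem map_cfc' (σ : F ≃⋆ₐ[ℂ] F) (f : ℝ → ℝ) (hf : Continuous f) {a : F} (ha : IsSelfAdjoint a) :
    σ (cfc f a) = cfc f (σ a) :=
  StarAlgHomClass.map_cfc σ.toStarAlgHom f a hf.continuousOn (map_continuous σ.toStarAlgHom) ha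
    (ha.map σ)

theorem fixed_cfc {σ : F ≃⋆ₐ[ℂ] F} (f : ℝ → ℝ) (hf : Continuous f) {a : F} (ha : IsSelfAdjoint a)
    (h : σ a = a) : σ (cfc f a) = cfc f a := by rw [map_cfc' σ f hf ha, h]

/-! ### Products along lists -/

theorem mul_list_prod_eq_zero {a g : F} : ∀ {l : List F}, g ∈ l → (∀ x ∈ l, Commute g x) →
    a * g = 0 → a * l.prod = 0
  | [], hg, _, _ => absurd hg (List.not_mem_nil)
  | x :: l, hg, hc, ha => by
    rw [List.prod_cons]
    rcases List.mem_cons.1 hg with rfl | hgl
    · rw [← mul_assoc, ha, zero_mul]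
    · rw [← mul_assoc]
      refine mul_list_prod_eq_zero hgl (fun y hy => hc y (List.mem_cons_of_mem _ hy)) ?_
      rw [mul_assoc, ← (hc x (List.mem_cons_self ..)).eq, ← mul_assoc, ha, zero_mul]

theorem prod_map_mul' {ι : Type*} {f g : ι → F} : ∀ {l : List ι}, l.Nodup →
    (∀ i ∈ l, ∀ j ∈ l, i ≠ j → Commute (g i) (f j)) →
    (l.map f).prod * (l.map g).prod = (l.map fun i => f i * g i).prod
  | [], _, _ => by simp
  | i :: l, hl, h => by
    rw [List.nodup_cons] at hl
    have hc : Commute (g i) (l.map f).prod := commute_list_prod fun x hx => by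
      obtain ⟨j, hj, rfl⟩ := List.mem_map.1 hx
      exact h i (by simp) j (by simp [hj]) fun e => hl.1 (e ▸ hj)
    have ih := prod_map_mul' hl.2 fun a ha b hb => h a (by simp [ha]) b (by simp [hb])
    simp only [List.map_cons, List.prod_cons]
    rw [mul_assoc (f i), ← mul_assoc (l.map f).prod, ← hc.eq, mul_assoc (g i), ih,
      ← mul_assoc (f i)]

/-- Witnesses of fullness in a subalgebra. -/
def FullW (B : StarSubalgebra ℂ F) (a : F) : Prop :=
  ∃ (K : ℕ) (y : Fin K → F), (∀ i, y i ∈ B) ∧ ∑ i, star (y i) * a * y i = 1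

theorem FullW.fullPos {B : StarSubalgebra ℂ F} {a : F} (h : FullW B a) : FullPos a :=
  let ⟨K, y, _, hy⟩ := h; ⟨K, y, hy⟩

theorem FullW.map {t : Set F} {B : StarSubalgebra ℂ F} (φ : Cl t →⋆ₐ[ℂ] F) (hφ : ∀ x, φ x ∈ B)
    {a : Cl t} (h : FullW (Cl t) (a : F)) : FullW B (φ a) := by
  obtain ⟨K, y, hy, h1⟩ := h
  refine ⟨K, fun i => φ ⟨y i, hy i⟩, fun i => hφ _, ?_⟩
  have : ∑ i, star (⟨y i, hy i⟩ : Cl t) * a * ⟨y i, hy i⟩ = 1 := Subtype.ext (by simpa using h1)
  have := congrArg φ this
  simpa [← map_star] using this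

theorem FullW.mul {B : StarSubalgebra ℂ F} {a b : F} (hb : FullW B b)
    (hy : ∃ (K : ℕ) (y : Fin K → F), (∀ i, y i ∈ B) ∧ ∑ i, star (y i) * a * y i = 1 ∧
      ∀ i, Commute (y i) b) : FullW B (a * b) := by
  obtain ⟨K, y, hyB, h1, hyb⟩ := hy
  obtain ⟨L, z, hzB, h2⟩ := hb
  refine ⟨K * L, fun i => y (finProdFinEquiv.symm i).1 * z (finProdFinEquiv.symm i).2,
    fun i => mul_mem (hyB _) (hzB _), ?_⟩
  rw [finProdFinEquiv.symm.sum_comp (fun p : Fin K × Fin L =>
    star (y p.1 * z p.2) * (a * b) * (y p.1 * z p.2)), Fintype.sum_prod_type_right, ← h2]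
  refine Finset.sum_congr rfl fun j _ => ?_
  calc ∑ i, star (y i * z j) * (a * b) * (y i * z j)
      = star (z j) * (∑ i, star (y i) * a * y i) * (b * z j) := by
        rw [mul_sum, sum_mul]
        refine Finset.sum_congr rfl fun i _ => ?_
        rw [star_mul]
        calc star (z j) * star (y i) * (a * b) * (y i * z j)
            = star (z j) * star (y i) * a * (b * y i) * z j := by simp only [mul_assoc]
          _ = star (z j) * star (y i) * a * (y i * b) * z j := by rw [(hyb i).eq]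
          _ = _ := by simp only [mul_assoc]
    _ = star (z j) * b * z j := by rw [h1, mul_one, mul_assoc]

/-- A product of full elements in pairwise commuting subalgebras is full. -/
theorem fullW_list_prod {ι : Type*} {B : StarSubalgebra ℂ F} (Bi : ι → StarSubalgebra ℂ F)
    (hB : ∀ i, Bi i ≤ B) (hc : ∀ i j, i ≠ j → ∀ x ∈ Bi i, ∀ y ∈ Bi j, Commute x y) (a : ι → F)
    (ha : ∀ i, a i ∈ Bi i) (hf : ∀ i, FullW (Bi i) (a i)) :
    ∀ l : List ι, l.Nodup → FullW B (l.map a).prod
  | [], _ => ⟨1, fun _ => 1, fun _ => one_mem B, by simp⟩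
  | i :: l, hl => by
    rw [List.nodup_cons] at hl
    have hcom : ∀ x ∈ Bi i, Commute x (l.map a).prod := fun x hx => commute_list_prod fun z hz => by
      obtain ⟨j, hj, rfl⟩ := List.mem_map.1 hz
      exact hc i j (fun e => hl.1 (e ▸ hj)) x hx _ (ha j)
    obtain ⟨K, y, hy, h1⟩ := hf i
    rw [List.map_cons, List.prod_cons]
    exact FullW.mul (fullW_list_prod Bi hB hc a ha hf l hl.2)
      ⟨K, y, fun k => hB i (hy k), h1, fun k => hcom _ (hy k)⟩

/-! ### Order -/

variable [PartialOrder F] [StarOrderedRing F]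

theorem bump_nonneg (η : ℝ) (u : F) : 0 ≤ bump η u :=
  cfc_nonneg fun _ _ => le_min zero_le_one (le_max_left _ _)

theorem bump_le_one (η : ℝ) (u : F) : bump η u ≤ 1 := cfc_le_one _ _ fun _ _ => min_le_left _ _

theorem bump_le_smul {η : ℝ} (hη : 0 < η) {u : F} (hu : 0 ≤ u) : bump η u ≤ (2 / η) • u := by
  rw [bump]
  conv_rhs => rw [← cfc_id' ℝ u, ← cfc_smul (2 / η) (fun t : ℝ => t) u continuous_id.continuousOn]
  refine cfc_mono (fun t ht => ?_) (continuous_bump η).continuousOn
    (continuous_id.const_smul (2 / η)).continuousOn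
  have h0 : 0 ≤ t := spectrum_nonneg_of_nonneg hu ht
  refine (min_le_right _ _).trans (max_le (smul_nonneg (by positivity) h0) ?_)
  rw [smul_eq_mul, div_le_iff₀ (by positivity)]
  field_simp
  linarith

theorem bump_le_cut {M : ℝ} (hM : 0 < M) (u : F) :
    bump (2 * M) u ≤ (2 / M) • cut (M / 2) u := by
  rw [bump, cut, ← cfc_smul (2 / M) (fun t => max (t - M / 2) 0) u (by fun_prop : Continuous _).continuousOn]
  refine cfc_mono (fun t _ => ?_) (continuous_bump _).continuousOn
    (((by fun_prop : Continuous fun t : ℝ => max (t - M / 2) 0).const_smul (2 / M))).continuousOn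
  rw [smul_eq_mul]
  rcases le_total t M with ht | ht
  · rw [bump_apply_zero (by positivity) (by linarith)]; positivity
  · refine (min_le_left _ _).trans ?_
    rw [div_mul_eq_mul_div, le_div_iff₀ hM]
    linarith [le_max_left (t - M / 2) 0]

theorem commute_mul_le {a b : F} (hb : 0 ≤ b) (ha : a ≤ 1) (hc : Commute a b) : a * b ≤ b := by
  have h := ((Commute.one_left b).sub_left hc).mul_nonneg (sub_nonneg.2 ha) hb
  rwa [sub_mul, one_mul, sub_nonneg] at h

theorem conj_le_of_commute {c u : F} (hc0 : 0 ≤ c) (hc1 : c ≤ 1) (hu : 0 ≤ u) (h : Commute c u) :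
    c * u * c ≤ u := by
  rw [mul_assoc, ← h.eq]
  exact (commute_mul_le (h.mul_nonneg hc0 hu) hc1 ((Commute.refl c).mul_right h)).trans
    (commute_mul_le hu hc1 h)

theorem star_mul_self_le_smul (a : F) : star a * a ≤ (‖a‖ ^ 2) • (1 : F) := by
  refine (IsSelfAdjoint.star_mul_self a).le_algebraMap_norm_self.trans_eq ?_
  rw [CStarRing.norm_star_mul_self, Algebra.algebraMap_eq_smul_one, sq]

theorem star_mul_self_le_one {a : F} {r : ℝ} (h : ‖a‖ ≤ r) : star a * a ≤ (r ^ 2) • (1 : F) :=
  (star_mul_self_le_smul a).trans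
    (smul_le_smul_of_nonneg_right (pow_le_pow_left₀ (norm_nonneg a) h 2) zero_le_one)

theorem mul_star_self_le_one {a : F} {r : ℝ} (h : ‖a‖ ≤ r) : a * star a ≤ (r ^ 2) • (1 : F) := by
  simpa using star_mul_self_le_one (a := star a) (by rwa [norm_star])

/-- `c²` is full with `c`. -/
theorem fullPos_sq {c : F} (hc : IsSelfAdjoint c) (h : FullPos c) : FullPos (c * c) := by
  obtain ⟨K, y, hy⟩ := h
  set N : ℝ := ‖∑ i, star (y i) * y i‖
  have hN : 0 ≤ N := norm_nonneg _
  set ε : ℝ := 1 / (2 * (N + 1))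
  have hε : 0 < ε := by positivity
  have hle : c ≤ ε • (1 : F) + (1 / (4 * ε)) • (c * c) := by
    conv_lhs => rw [← cfc_id' ℝ c]
    rw [← Algebra.algebraMap_eq_smul_one, show c * c = cfc (fun t : ℝ => t * t) c by
      rw [cfc_mul .., cfc_id' ℝ c], ← cfc_smul .., ← cfc_const_add ..]
    refine cfc_mono fun t _ => ?_
    rw [smul_eq_mul, ← sub_nonneg,
      show ε + 1 / (4 * ε) * (t * t) - t = (t - 2 * ε) ^ 2 / (4 * ε) by field_simp; ring]
    positivity
  set a := Real.sqrt (1 / (4 * ε))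
  have ha : a * a = 1 / (4 * ε) := Real.mul_self_sqrt (by positivity)
  refine Coin.fullPos_of_one_le (IsSelfAdjoint.mul_self_nonneg hc).isSelfAdjoint
    (fun i => a • y i) (r := ε * N) ?_ ?_
  · rw [show ε * N = N / (2 * (N + 1)) by ring, div_lt_one (by positivity)]; linarith
  calc (1 : F) = ∑ i, star (y i) * c * y i := hy.symm
    _ ≤ ∑ i, (ε • (star (y i) * y i) + star (a • y i) * (c * c) * (a • y i)) := by
        refine sum_le_sum fun i _ => (star_left_conjugate_le_conjugate hle (y i)).trans_eq ?_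
        rw [Coin.star_smul_conj, ha, mul_add, add_mul, mul_smul_comm, mul_smul_comm,
          smul_mul_assoc, smul_mul_assoc, mul_one]
    _ ≤ _ := by
        rw [sum_add_distrib, ← smul_sum, add_comm (ε • _)]
        refine add_le_add le_rfl ?_
        rw [mul_smul]
        refine smul_le_smul_of_nonneg_left ?_ hε.le
        rw [← Algebra.algebraMap_eq_smul_one]
        exact (isSelfAdjoint_sum _ fun i _ => IsSelfAdjoint.star_mul_self _).le_algebraMap_norm_self

theorem InvData.inv_mem {D : F} (I : InvData D) (hD : 1 ≤ D) {B : StarSubalgebra ℂ F}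
    (hB : IsClosed (B : Set F)) (hm : D ∈ B) : I.inv ∈ B := by
  have hsa : IsSelfAdjoint D := IsSelfAdjoint.of_nonneg (zero_le_one.trans hD)
  have hspec := (algebraMap_le_iff_le_spectrum hsa).1
    ((map_one (algebraMap ℝ F)).trans_le hD)
  have hg : Continuous fun t : ℝ => (max t 1)⁻¹ :=
    (continuous_id.max continuous_const).inv₀ fun t => (lt_max_of_lt_right one_pos).ne'
  have e : D * cfc (fun t : ℝ => (max t 1)⁻¹) D = 1 := by
    conv_lhs => enter [1]; rw [← cfc_id' ℝ D]
    rw [← cfc_mul (fun t : ℝ => t) _ D continuous_id.continuousOn hg.continuousOn, ← cfc_const_one ℝ D]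
    refine cfc_congr fun t ht => ?_
    rw [max_eq_left (hspec t ht), mul_inv_cancel₀ (by linarith [hspec t ht])]
  rw [show I.inv = cfc (fun t : ℝ => (max t 1)⁻¹) D by
    rw [← mul_one I.inv, ← e, ← mul_assoc, I.left, one_mul]]
  exact Coin.cfc_mem' hB hm _

omit [PartialOrder F] [StarOrderedRing F] in
theorem InvData.commute_inv {D : F} (I : InvData D) {x : F} (h : Commute x D) : Commute x I.inv := by
  show x * I.inv = I.inv * x
  calc x * I.inv = I.inv * (D * x) * I.inv := by rw [← mul_assoc I.inv, I.left, one_mul]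
    _ = I.inv * x * (D * I.inv) := by rw [← h.eq]; simp only [mul_assoc]
    _ = I.inv * x := by rw [I.right, mul_one]

/-! ### Geometric sums over a window -/

theorem sum_pow_dist_le {r : ℝ} (h0 : 0 ≤ r) (h1 : r < 1) (W : ℕ) :
    ∑ k ∈ range (2 * W + 1), r ^ Nat.dist k W ≤ 2 / (1 - r) := by
  have hg : ∀ n, ∑ j ∈ range n, r ^ j ≤ 1 / (1 - r) := fun n => by
    rw [range_eq_Ico]
    refine (geom_sum_Ico_le_of_lt_one h0 h1).trans_eq ?_
    rw [pow_zero]
  have e : (2 * W + 1) = (W + 1) + W := by ring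
  rw [e, sum_range_add, show (2 : ℝ) / (1 - r) = 1 / (1 - r) + 1 / (1 - r) by ring]
  refine add_le_add ?_ ?_
  · rw [← sum_range_reflect]
    refine le_trans (le_of_eq (sum_congr rfl fun j hj => ?_)) (hg (W + 1))
    have := mem_range.1 hj
    congr 1
    rw [Nat.dist_eq_sub_of_le (by omega)]
    omega
  · have e2 : ∑ j ∈ range W, r ^ Nat.dist (W + 1 + j) W = ∑ j ∈ range W, r ^ (j + 1) :=
      sum_congr rfl fun j _ => by
        congr 1
        rw [Nat.dist_eq_sub_of_le_right (by omega)]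
        omega
    rw [e2]
    refine le_trans ?_ (hg (W + 1))
    rw [sum_range_succ' (fun j => r ^ j) W]
    exact le_add_of_nonneg_right (by simp)

end

end Vale.Agent.P095.Amen.Square
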