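import Vale.Agent.P095.Amen.Square.Upper

/-!
# P095 Square: fullness, and the outcome for one bank of blocks
-/

namespace Vale.Agent.P095.Amen.Square

open Vale.Agent.P101.KR Finset
open scoped CStarAlgebra

noncomputable section

set_option linter.unusedSectionVars false

variable {F : Type} [CStarAlgebra F] [PartialOrder F] [StarOrderedRing F]

namespace Bank

variable {σ : F ≃⋆ₐ[ℂ] F} {L : ℕ} {qm qp εr : ℝ} (b : Bank σ L qm qp εr) {η : ℝ} (W : ℕ)

/-- All other blocks in their letter `C`. -/
def others (l : Fin L) : F := oth b.C l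

theorem others_star (l : Fin L) : star (b.others l) = b.others l :=
  (IsSelfAdjoint.of_nonneg (oth_nonneg b.C_commute fun j => (b.C_pos j).1)).star_eq

theorem commute_others_src {l m : Fin L} {x : F} (hx : b.Src m x) :
    Commute (b.others l) (x * star x) :=
  (commute_oth fun j _ => (hx.commute_C j).symm).symm

theorem others_mul_src {l m : Fin L} {x : F} (hx : b.Src m x) (h : m ≠ l) :
    b.others l * x = 0 ∧ x * b.others l = 0 := by
  refine ⟨?_, mul_oth_eq_zero b.C_commute h hx.mul_C⟩
  have h1 : star x * b.others l = 0 := mul_oth_eq_zero b.C_commute h (by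
    rw [← (IsSelfAdjoint.of_nonneg (b.C_pos m).1).star_eq, ← star_mul, hx.C_mul, star_zero])
  have := congrArg star h1
  rwa [star_mul, star_star, b.others_star, star_zero] at this

theorem commute_others_c (l m : Fin L) : Commute (b.others l) (b.c m) :=
  commute_oth fun i _ => (commute_oth fun j _ => by
    rcases eq_or_ne i j with rfl | h
    · show b.G i * b.C i = b.C i * b.G i
      rw [b.G_C, b.C_G]
    · exact b.comm i j h _ (b.G_mem i) _ (b.C_mem j) : Commute (b.G i) (b.others l)).symm

theorem c_mul_others (l : Fin L) : b.c l * b.others l = b.others l := by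
  rw [c, others, oth_mul_oth fun i j h => b.comm i j h _ (b.C_mem i) _ (b.G_mem j)]
  simp only [b.G_C]

/-- A combination, seen from all other blocks in the letter `C`. -/
theorem others_mul_comb (l : Fin L) {x : Fin L → F} (hx : ∀ m, b.Src m (x m)) :
    b.others l * b.comb x = b.others l * x l ∧ b.comb x * b.others l = b.others l * x l := by
  have hco : Commute (x l) (b.others l) :=
    commute_oth fun j hj => b.comm l j hj.symm _ (hx l).mem _ (b.C_mem j)
  constructor
  · rw [comb, mul_sum, sum_eq_single l]
    · rw [← mul_assoc, (b.commute_others_c l l).eq, b.c_mul_others]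
    · intro m _ hm
      rw [← mul_assoc, (b.commute_others_c l m).eq, mul_assoc, (b.others_mul_src (hx m) hm).1,
        mul_zero]
    · simp
  · rw [comb, sum_mul, sum_eq_single l]
    · rw [mul_assoc, hco.eq, ← mul_assoc, b.c_mul_others]
    · intro m _ hm
      rw [mul_assoc, (b.others_mul_src (hx m) hm).2, mul_zero]
    · simp

theorem others_mul_sum (l : Fin L) {x : Fin L → F} (hx : ∀ m, b.Src m (x m)) :
    b.others l * ∑ m, x m * star (x m) = b.others l * (x l * star (x l)) := by
  rw [mul_sum, sum_eq_single l]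
  · intro m _ hm
    rw [← mul_assoc, (b.others_mul_src (hx m) hm).1, zero_mul]
  · simp

/-- The guard as block `l` alone would have it. -/
def D0 (η : ℝ) (l : Fin L) : F :=
  1 + b.y l * star (b.y l) +
    ∑ k ∈ range (2 * W + 1), w η W k • (b.inc W k l * star (b.inc W k l))

theorem D0_props (hη : 0 < η) (hη1 : η ≤ 1 / 16) (hεr : εr = η ^ 3) (l : Fin L) :
    b.others l * b.D η W = b.D0 W η l * b.others l ∧
      Commute (b.others l) (b.D η W) ∧ IsSelfAdjoint (b.D0 W η l) ∧ ‖b.D0 W η l‖ ≤ 3 := by
  have hη' : η ≤ 1 := by linarith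
  have hpos : 0 ≤ b.D0 W η l := add_nonneg (add_nonneg zero_le_one (mul_star_self_nonneg _))
    (sum_nonneg fun k _ => smul_nonneg (w_nonneg W hη' k) (mul_star_self_nonneg _))
  refine ⟨?_, ?_, hpos.isSelfAdjoint, ?_⟩
  · have hc : Commute (b.others l) (b.D0 W η l) :=
      ((Commute.one_right _).add_right (b.commute_others_src (b.src_y l))).add_right
        (Commute.sum_right _ _ _ fun k _ => (b.commute_others_src (b.inc_props W k l).1).smul_right _)
    rw [← hc.eq, D, D0, mul_add, mul_add, mul_add, mul_add, S, mul_sum, mul_sum]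
    congr 1
    · congr 1
      rw [T, ← mul_assoc (b.others l), (b.others_mul_comb l b.src_y).1, mul_assoc (b.others l),
        ← b.others_star l]
      have h := congrArg star (b.others_mul_comb l b.src_y).1
      rw [star_mul, star_mul] at h
      calc star (b.others l) * (b.y l * star (b.comb b.y))
          = b.y l * (star (b.comb b.y) * star (b.others l)) := by
            have h1 : Commute (b.y l) (star (b.others l)) := by
              rw [b.others_star]
              exact commute_oth fun j hj => b.comm l j hj.symm _ (b.y_mem l) _ (b.C_mem j)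
            have h2 : Commute (star (b.others l)) (b.comb b.y) := by
              rw [b.others_star]
              show _ = _
              rw [(b.others_mul_comb l b.src_y).1, (b.others_mul_comb l b.src_y).2]
            have h3 : Commute (b.others l) (star (b.comb b.y)) := by
              have := h2.star_star
              rwa [star_star] at this
            rw [← mul_assoc, ← h1.eq, mul_assoc, b.others_star, h3.eq]
        _ = b.y l * (star (b.y l) * star (b.others l)) := by rw [h]
        _ = star (b.others l) * (b.y l * star (b.y l)) := by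
            rw [← mul_assoc, b.others_star, (b.commute_others_src (b.src_y l)).eq]
    · refine sum_congr rfl fun k _ => ?_
      rw [mul_smul_comm, mul_smul_comm, X, b.others_mul_sum l fun m => (b.inc_props W k m).1]
  · exact ((Commute.one_right _).add_right
      (b.commute_comb b.src_y (b.commute_others_c l) fun m => b.commute_others_src (b.src_y m))).add_right
      (Commute.sum_right _ _ _ fun k _ => (Commute.sum_right _ _ _ fun m _ =>
        b.commute_others_src (b.inc_props W k m).1).smul_right _)
  · refine (norm_add_le _ _).trans ?_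
    have h1 : ‖(1 : F) + b.y l * star (b.y l)‖ ≤ 2 := by
      refine (norm_add_le _ _).trans ?_
      have := CStarRing.norm_self_mul_star (x := b.y l)
      rcases subsingleton_or_nontrivial F with hF | hF
      · simp [Subsingleton.elim (1 : F) 0, Subsingleton.elim (b.y l * star (b.y l)) 0]
      · rw [CStarRing.norm_one, this]; nlinarith [norm_nonneg (b.y l), b.norm_y l]
    have h2 : ‖∑ k ∈ range (2 * W + 1), w η W k • (b.inc W k l * star (b.inc W k l))‖ ≤ 1 := by
      obtain ⟨-, h4, -⟩ := weight_facts hη hη1 W 0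
      calc _ ≤ ∑ k ∈ range (2 * W + 1), η ^ 4 * (1 - η) ^ Nat.dist k W := by
            refine (norm_sum_le _ _).trans (sum_le_sum fun k _ => ?_)
            rw [norm_smul, Real.norm_of_nonneg (w_nonneg W hη' k), CStarRing.norm_self_mul_star, ← sq]
            refine (mul_le_mul_of_nonneg_left (pow_le_pow_left₀ (norm_nonneg _)
              (b.inc_props W k l).2 2) (w_nonneg W hη' k)).trans_eq ?_
            rw [w, hεr]; field_simp
        _ ≤ η ^ 4 * (2 / η) := by
            rw [← mul_sum]; exact mul_le_mul_of_nonneg_left h4 (by positivity)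
        _ = 2 * η ^ 3 := by field_simp
        _ ≤ 2 * (1 / 16) ^ 3 :=
            mul_le_mul_of_nonneg_left (pow_le_pow_left₀ hη.le hη1 3) (by norm_num)
        _ ≤ 1 := by norm_num
    linarith

/-- Whatever all other blocks in the letter `C` see as the row element, up to a bounded factor, is
full. -/
theorem fullPos_of_others (l : Fin L) {z D₀ : F} {δ : ℝ} (hδ : δ ≤ 1 / 36864)
    (hCz : Commute (b.others l) z) (hsa : IsSelfAdjoint D₀) (hn : ‖D₀‖ ≤ 3)
    (hCy0 : b.others l * b.y l = D₀ * (b.others l * z)) :
    FullPos (cut δ (star z * z)) := by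
  set C := b.others l
  set R := b.R l
  set v := cut δ (star z * z)
  have hCR : Commute R C := commute_oth fun j hj => b.comm l j hj.symm _ (b.R_mem l) _ (b.C_mem j)
  have hCy : Commute (b.y l) C :=
    commute_oth fun j hj => b.comm l j hj.symm _ (b.y_mem l) _ (b.C_mem j)
  have hC := b.others_star l
  have hR := (b.R_star l).star_eq
  have hle : star (C * b.y l) * (C * b.y l) ≤ (9 : ℝ) • (star (C * z) * (C * z)) := by
    rw [hCy0, star_mul, hsa.star_eq]
    have h := star_left_conjugate_le_conjugate (star_mul_self_le_one hn) (C * z)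
    rw [hsa.star_eq, mul_smul_comm, mul_one, smul_mul_assoc] at h
    refine le_trans (le_of_eq ?_) (h.trans_eq (by norm_num))
    simp only [mul_assoc]
  set Φ := C * R
  have hΦ : star Φ = Φ := by rw [star_mul, hC, hR, hCR.eq]
  have hΦΦ : Φ * Φ = R * R * (C * C) := by
    show C * R * (C * R) = _
    rw [← hCR.eq, mul_assoc R C, ← mul_assoc C R, ← hCR.eq, mul_assoc R C C, ← mul_assoc]
  have h1 : (1 / 2 : ℝ) • (Φ * Φ) ≤ (9 : ℝ) • (Φ * (star z * z) * Φ) := by
    have e1 : C * (R * R) * C = Φ * Φ := by
      calc C * (R * R) * C = C * R * (R * C) := by simp only [mul_assoc]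
        _ = C * R * (C * R) := by rw [hCR.eq]
    have e2 : R * (star (C * b.y l) * (C * b.y l)) * R = C * (R * (star (b.y l) * b.y l) * R) * C := by
      have hs : star (C * b.y l) = C * star (b.y l) := by
        rw [← hCy.eq, star_mul, hC]
      rw [hs, ← hCy.eq]
      calc R * (C * star (b.y l) * (b.y l * C)) * R
          = (R * C) * (star (b.y l) * b.y l) * (C * R) := by simp only [mul_assoc]
        _ = (C * R) * (star (b.y l) * b.y l) * (R * C) := by rw [hCR.eq]
        _ = _ := by simp only [mul_assoc]
    have e3 : R * (star (C * z) * (C * z)) * R = Φ * (star z * z) * Φ := by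
      have hs : star (C * z) = C * star z := by
        rw [hCz.eq, star_mul, hC]
      rw [hs, hCz.eq]
      calc R * (C * star z * (z * C)) * R = (R * C) * (star z * z) * (C * R) := by
            simp only [mul_assoc]
        _ = _ := by rw [hCR.eq]
    have h := IsSelfAdjoint.conjugate_le_conjugate (b.low l) (show IsSelfAdjoint C from hC)
    rw [mul_smul_comm, smul_mul_assoc, e1, ← e2] at h
    refine h.trans ?_
    refine (IsSelfAdjoint.conjugate_le_conjugate hle (b.R_star l)).trans_eq ?_
    rw [mul_smul_comm, smul_mul_assoc, e3]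
  have hzz : Φ * (star z * z) * Φ ≤ Φ * v * Φ + δ • (Φ * Φ) := by
    refine (IsSelfAdjoint.conjugate_le_conjugate
      (Coin.le_cut_add (IsSelfAdjoint.star_mul_self z) δ)
      (show IsSelfAdjoint Φ from hΦ)).trans_eq ?_
    rw [mul_add, add_mul, mul_smul_comm, mul_one, smul_mul_assoc]
  have h2 := h1.trans (smul_le_smul_of_nonneg_left hzz (by norm_num : (0 : ℝ) ≤ 9))
  rw [smul_add, smul_smul] at h2
  have h3 : Φ * Φ ≤ (36 : ℝ) • (Φ * v * Φ) := by
    have h5 : (1 / 2 - 9 * δ) • (Φ * Φ) ≤ (9 : ℝ) • (Φ * v * Φ) := by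
      rw [sub_smul, sub_le_iff_le_add]; exact h2
    have h4 : (1 / 4 : ℝ) • (Φ * Φ) ≤ (9 : ℝ) • (Φ * v * Φ) :=
      (smul_le_smul_of_nonneg_right (by linarith)
        (show IsSelfAdjoint Φ from hΦ).mul_self_nonneg).trans h5
    have := smul_le_smul_of_nonneg_left h4 (by norm_num : (0 : ℝ) ≤ 4)
    rw [smul_smul, smul_smul] at this
    norm_num at this
    exact this
  have hfull : FullPos (Φ * Φ) := by
    rw [hΦΦ]
    obtain ⟨K, u, hu, hsum⟩ := b.full_R l
    have hCC : C * C = oth (fun j => b.C j * b.C j) l :=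
      oth_mul_oth fun i j h => b.comm i j h _ (b.C_mem i) _ (b.C_mem j)
    have hb : FullW (Cl b.supp) (oth (fun j => b.C j * b.C j) l) := by
      refine fullW_list_prod (fun j => Cl (b.t j)) b.le_supp b.comm
        (fun j => if j = l then 1 else b.C j * b.C j) (fun j => ?_) (fun j => ?_) _
        (List.nodup_finRange L)
      · split_ifs
        exacts [one_mem _, mul_mem (b.C_mem j) (b.C_mem j)]
      · split_ifs
        exacts [⟨1, fun _ => 1, fun _ => one_mem _, by simp⟩, b.full_C j]
    rw [hCC]
    exact (FullW.mul hb ⟨K, u, fun i => b.le_supp l (hu i), hsum, fun i => commute_oth fun j hj =>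
      b.comm l j hj.symm _ (hu i) _ (mul_mem (b.C_mem j) (b.C_mem j))⟩).fullPos
  refine Coin.fullPos_of_le_conj hfull (isSelfAdjoint_cut _ _) (g := (6 : ℝ) • Φ) ?_
  rw [Coin.star_smul_conj, hΦ]
  exact h3.trans_eq (by norm_num)

/-- `z*z` is full. -/
theorem fullPos_zz (hη : 0 < η) (hη1 : η ≤ 1 / 16) (hεr : εr = η ^ 3) (l : Fin L)
    (I : InvData (b.D η W)) :
    FullPos (cut (1 / 36864) (star (I.inv * b.T) * (I.inv * b.T))) := by
  obtain ⟨hD, hcD, hsa, hn⟩ := b.D0_props W hη hη1 hεr l
  have hTz : b.D η W * (I.inv * b.T) = b.T := by rw [← mul_assoc, I.right, one_mul]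
  have hCT : Commute (b.others l) b.T := by
    show b.others l * b.T = b.T * b.others l
    rw [T, (b.others_mul_comb l b.src_y).1, (b.others_mul_comb l b.src_y).2]
  refine b.fullPos_of_others l le_rfl ((I.commute_inv hcD).mul_right hCT) hsa hn ?_
  rw [← mul_assoc (b.D0 W η l), ← hD, mul_assoc, hTz, T, (b.others_mul_comb l b.src_y).1]

include b in
/-- One bank gives an almost fixed element of square zero, full and large. -/
theorem exists_elem (hL : 0 < L) (hη : 0 < η) (hη1 : η ≤ 1 / 16) (hεr : εr = η ^ 3) (hqp : 0 ≤ qp)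
    (hqp1 : 2 * qp ≤ 1) (hqm : 0 ≤ qm) (hlow : 1 / 16 ≤ L * (qm * (1 - 2 * qp) ^ L))
    (hLq : (L : ℝ) * qp ≤ 1 / 6) :
    ∃ z : F, ‖z‖ ≤ 1 ∧ z * z = 0 ∧ ‖σ z - z‖ ≤ 24 * η ∧
      FullPos (cut (1 / 36864) (star z * z)) ∧ DGe (cut (1 / 36864) (star z * z)) (1 / 20) := by
  have hη' : η ≤ 1 := by linarith
  set W := ⌈(L : ℝ) / η⌉₊ with hWdef
  have hW : 0 < W := Nat.ceil_pos.2 (div_pos (Nat.cast_pos.2 hL) hη)
  have hWL : (1 - η) ^ W * (L : ℝ) ≤ 1 := by
    have h1 : (L : ℝ) ≤ 1 + W * η := by
      have := mul_le_mul_of_nonneg_right (Nat.le_ceil ((L : ℝ) / η)) hη.le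
      rw [div_mul_cancel₀ _ hη.ne', ← hWdef] at this
      linarith
    refine (mul_le_mul_of_nonneg_left (h1.trans (one_add_mul_le_pow (by linarith) W))
      (pow_nonneg (by linarith) W)).trans ?_
    rw [← mul_pow]
    exact pow_le_one₀ (mul_nonneg (by linarith) (by linarith)) (by nlinarith)
  obtain ⟨I⟩ := exists_invData (b.one_le_D W hη')
  have hm : star (I.inv * b.T) * (I.inv * b.T) ∈ Cl b.supp := by
    have : I.inv * b.T ∈ Cl b.supp :=
      mul_mem (I.inv_mem (b.one_le_D W hη') (isClosed_Cl _) (b.D_mem W)) (b.comb_mem b.y_mem)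
    exact mul_mem (star_mem this) this
  exact ⟨I.inv * b.T, b.norm_le_one W hη' I, b.sq_zero W I,
    b.almost_fixed W hη hη1 hεr hW hWL I, b.fullPos_zz W hη hη1 hεr ⟨0, hL⟩ I,
    b.supp, b.countable_supp, posIn (Coin.cfc_mem' (isClosed_Cl _) hm _) (Coin.cut_nonneg' _ _),
    b.dim_star_mul_self W hη hη1 hεr hqp hqp1 hqm hlow hLq I⟩

end Bank

end

end Vale.Agent.P095.Amen.Square
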