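import Vale.Agent.P095.Amen.Square.Build

/-!
# P095 Square: an exactly fixed full element of square zero
-/

namespace Vale.Agent.P095.Amen.Square

open Vale.Agent.P101.KR Finset
open scoped CStarAlgebra

noncomputable section

/-- The sum of a list of terms. -/
def sumT {k : ℕ} : List (Term k) → Term k
  | [] => .smul 0 .one
  | a :: l => .add a (sumT l)

theorem eval_sumT {F : Type} [CStarAlgebra F] {k : ℕ} (x : Fin k → F) :
    ∀ l : List (Term k), (sumT l).eval x = (l.map fun a => a.eval x).sum
  | [] => zero_smul ℂ (1 : F)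
  | a :: l => by simp [sumT, Term.eval, eval_sumT x l]

/-- The relations: `z` has square zero and the `y` are witnesses that `z*z` is full. -/
def squareRels (K : ℕ) : List (Term (K + 1)) :=
  [.mul (.var 0) (.var 0),
    .add (sumT (List.ofFn fun i : Fin K =>
      .mul (.mul (.adj (.var i.succ)) (.mul (.adj (.var 0)) (.var 0))) (.var i.succ))) (.smul (-1) .one)]

theorem eval_squareRels {F : Type} [CStarAlgebra F] {K : ℕ} (x : Fin (K + 1) → F) :
    (squareRels K).map (fun r => r.eval x) =
      [x 0 * x 0, (∑ i : Fin K, star (x i.succ) * (star (x 0) * x 0) * x i.succ) - 1] := by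
  simp [squareRels, Term.eval, eval_sumT, List.sum_ofFn, Function.comp_def, sub_eq_add_neg]

/-- An exactly fixed full element of square zero, from the four modules. -/
theorem square_of (hC : CompareTarget) (hW : WitnessTarget) (hL : LettersTarget) (hR : RowTarget) :
    SquareTarget := by
  intro F _ σ hS
  let _ := CStarAlgebra.spectralOrder F
  let _ := CStarAlgebra.spectralOrderedRing F
  obtain ⟨K, hK⟩ := hW (1 / 20) (by norm_num)
  have happ : ∀ ε : ℝ, 0 < ε → ∃ x : Fin (K + 1) → F,
      (∀ i, ‖x i‖ ≤ max 1 (2 / Real.sqrt (1 / 36864))) ∧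
        (∀ r ∈ squareRels K, ‖r.eval x‖ ≤ ε) ∧
          ∀ i ∈ ({0} : Finset (Fin (K + 1))), ‖σ (x i) - x i‖ ≤ ε := by
    intro ε hε
    set η := min (1 / 16) (ε / 24)
    have hη : 0 < η := lt_min (by norm_num) (by positivity)
    obtain ⟨L, qm, qp, hL0, hqp, hqp1, hqm, hlow, hLq, ⟨b⟩⟩ :=
      exists_bank hC hL hR hS (pow_pos hη 3)
    obtain ⟨z, hz1, hz2, hz3, hfull, hge⟩ :=
      b.exists_elem hL0 hη (min_le_left _ _) rfl hqp hqp1 hqm hlow hLq
    obtain ⟨y, hy1, hy2⟩ := hK F (hasCopies_of_setting hS) hS.central hS.noChar (star z * z) (1 / 36864)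
      (Coin.sqLe_iff.2 (star_mul_self_nonneg z)) (by norm_num) hfull hge
    refine ⟨Fin.cons z y, fun i => ?_, fun r hr => ?_, fun i hi => ?_⟩
    · refine Fin.cases ?_ (fun j => ?_) i
      · rw [Fin.cons_zero]; exact hz1.trans (le_max_left _ _)
      · rw [Fin.cons_succ]; exact (hy1 j).trans (le_max_right _ _)
    · have h := List.mem_map_of_mem (f := fun r => r.eval (Fin.cons z y : Fin (K + 1) → F)) hr
      rw [eval_squareRels] at h
      simp only [Fin.cons_zero, Fin.cons_succ, hz2, hy2, sub_self, List.mem_cons, List.not_mem_nil,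
        or_false, or_self] at h
      rw [h, norm_zero]; exact hε.le
    · rw [Finset.mem_singleton.1 hi, Fin.cons_zero]
      exact hz3.trans (by linarith [min_le_right (1 / 16) (ε / 24)])
  obtain ⟨x, hx, hfix⟩ := hS.saturated (K + 1) {0} (squareRels K) _ happ
  have h : ∀ v ∈ (squareRels K).map (fun r => r.eval x), v = 0 := fun v hv => by
    obtain ⟨r, hr, rfl⟩ := List.mem_map.1 hv
    exact hx r hr
  rw [eval_squareRels] at h
  exact ⟨x 0, hfix 0 (Finset.mem_singleton_self 0), h _ (by simp), K, fun i => x i.succ,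
    sub_eq_zero.1 (h _ (by simp))⟩

end

end Vale.Agent.P095.Amen.Square
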