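import Vale.Agent.P095.Amen.Square.Calc

/-!
# P095 Square: commuting blocks and the combined element
-/

namespace Vale.Agent.P095.Amen.Square

open Vale.Agent.P101.KR Finset
open scoped CStarAlgebra

noncomputable section

set_option linter.unusedSectionVars false

variable {F : Type} [CStarAlgebra F] [PartialOrder F] [StarOrderedRing F]

/-- `L` commuting blocks, each with a support `P`, a letter `C` orthogonal to it and a row element
`y` from `P` to its complement. -/
structure Bank (σ : F ≃⋆ₐ[ℂ] F) (L : ℕ) (qm qp εr : ℝ) where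
  t : Fin L → Set F
  P : Fin L → F
  C : Fin L → F
  R : Fin L → F
  y : Fin L → F
  countable : ∀ l, (t l).Countable
  image_eq : ∀ l, σ '' t l = t l
  comm : ∀ i j, i ≠ j → ∀ x ∈ Cl (t i), ∀ w ∈ Cl (t j), Commute x w
  P_mem : ∀ l, P l ∈ Cl (t l)
  C_mem : ∀ l, C l ∈ Cl (t l)
  R_mem : ∀ l, R l ∈ Cl (t l)
  y_mem : ∀ l, y l ∈ Cl (t l)
  P_pos : ∀ l, 0 ≤ P l ∧ P l ≤ 1
  C_pos : ∀ l, 0 ≤ C l ∧ C l ≤ 1
  R_star : ∀ l, IsSelfAdjoint (R l)
  fix_P : ∀ l, σ (P l) = P l
  fix_C : ∀ l, σ (C l) = C l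
  y_P : ∀ l, y l * P l = y l
  P_y : ∀ l, P l * y l = 0
  P_C : ∀ l, P l * C l = 0
  C_y : ∀ l, C l * y l = 0
  norm_y : ∀ l, ‖y l‖ ≤ 1
  almost : ∀ l, ‖σ (y l) - y l‖ ≤ εr
  low : ∀ l, (1 / 2 : ℝ) • (R l * R l) ≤ R l * (star (y l) * y l) * R l
  dim_P : ∀ l, ∀ d : Dim (Cl (t l)), d.d (P l) ≤ qp
  dim_R : ∀ l, ∀ d : Dim (Cl (t l)), qm ≤ d.d (R l * R l)
  full_R : ∀ l, FullW (Cl (t l)) (R l * R l)
  full_C : ∀ l, FullW (Cl (t l)) (C l * C l)

/-- The product of all factors but one. -/
def oth {L : ℕ} (f : Fin L → F) (l : Fin L) : F :=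
  ((List.finRange L).map fun j => if j = l then 1 else f j).prod

section Oth

variable {L : ℕ} {f g : Fin L → F} {l : Fin L}

omit [PartialOrder F] [StarOrderedRing F] in
theorem oth_mem {B : StarSubalgebra ℂ F} (h : ∀ j, f j ∈ B) : oth f l ∈ B :=
  list_prod_mem fun x hx => by
    obtain ⟨j, -, rfl⟩ := List.mem_map.1 hx
    split_ifs
    exacts [one_mem B, h j]

omit [PartialOrder F] [StarOrderedRing F] in
theorem commute_oth {a : F} (h : ∀ j, j ≠ l → Commute a (f j)) : Commute a (oth f l) :=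
  commute_list_prod fun x hx => by
    obtain ⟨j, -, rfl⟩ := List.mem_map.1 hx
    split_ifs with hj
    exacts [Commute.one_right a, h j hj]

omit [PartialOrder F] [StarOrderedRing F] in
theorem mul_oth_eq_zero {a : F} (hf : ∀ i j, Commute (f i) (f j)) {j : Fin L} (hj : j ≠ l)
    (h : a * f j = 0) : a * oth f l = 0 := by
  refine mul_list_prod_eq_zero (g := f j)
    (List.mem_map.2 ⟨j, List.mem_finRange j, if_neg hj⟩) (fun x hx => ?_) h
  obtain ⟨i, -, rfl⟩ := List.mem_map.1 hx
  split_ifs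
  exacts [Commute.one_right _, hf j i]

omit [PartialOrder F] [StarOrderedRing F] in
theorem oth_mul_oth (h : ∀ i j, i ≠ j → Commute (g i) (f j)) :
    oth f l * oth g l = oth (fun j => f j * g j) l := by
  unfold oth
  rw [prod_map_mul' (List.nodup_finRange L) fun i _ j _ hij => by
    split_ifs
    exacts [Commute.one_right _, Commute.one_left _, Commute.one_right _, h i j hij]]
  congr 1
  refine List.map_congr_left fun j _ => ?_
  split_ifs <;> simp

omit [PartialOrder F] [StarOrderedRing F] in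
theorem pairwise_oth (hf : ∀ i j, Commute (f i) (f j)) :
    ((List.finRange L).map fun j => if j = l then 1 else f j).Pairwise Commute := by
  refine List.pairwise_map.2 (List.pairwise_of_forall fun i j => ?_)
  split_ifs
  exacts [Commute.one_right _, Commute.one_left _, Commute.one_right _, hf i j]

theorem oth_nonneg (hf : ∀ i j, Commute (f i) (f j)) (h : ∀ j, 0 ≤ f j) : 0 ≤ oth f l :=
  list_prod_nonneg (fun x hx => by
    obtain ⟨j, -, rfl⟩ := List.mem_map.1 hx
    split_ifs
    exacts [zero_le_one, h j]) (pairwise_oth hf)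

theorem oth_le_one (hf : ∀ i j, Commute (f i) (f j)) (h : ∀ j, 0 ≤ f j ∧ f j ≤ 1) :
    oth f l ≤ 1 :=
  list_prod_le_one (fun x hx => by
    obtain ⟨j, -, rfl⟩ := List.mem_map.1 hx
    split_ifs
    exacts [⟨zero_le_one, le_rfl⟩, h j]) (pairwise_oth hf)

end Oth

namespace Bank

variable {σ : F ≃⋆ₐ[ℂ] F} {L : ℕ} {qm qp εr : ℝ} (b : Bank σ L qm qp εr)

/-- Everything in use. -/
def supp : Set F := ⋃ l, b.t l

theorem countable_supp : b.supp.Countable := Set.countable_iUnion b.countable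

theorem le_supp (l : Fin L) : Cl (b.t l) ≤ Cl b.supp := Cl_mono (Set.subset_iUnion b.t l)

theorem map_mem (l : Fin L) {x : F} (hx : x ∈ Cl (b.t l)) :
    σ x ∈ Cl (b.t l) ∧ σ.symm x ∈ Cl (b.t l) := by
  constructor
  · refine (Cl_le (S := (Cl (b.t l)).comap σ.toStarAlgHom)
      ((isClosed_Cl _).preimage (map_continuous σ.toStarAlgHom)) (fun a ha => ?_)) hx
    exact subset_Cl _ (b.image_eq l ▸ Set.mem_image_of_mem σ ha)
  · refine (Cl_le (S := (Cl (b.t l)).comap σ.symm.toStarAlgHom)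
      ((isClosed_Cl _).preimage (map_continuous σ.symm.toStarAlgHom)) (fun a ha => ?_)) hx
    obtain ⟨a', ha', rfl⟩ := (b.image_eq l).symm ▸ ha
    show σ.symm (σ a') ∈ Cl (b.t l)
    rw [StarAlgEquiv.symm_apply_apply]
    exact subset_Cl _ ha'

/-- A source in block `l`: a contraction from `P` to the complement of `P` and `C`. -/
structure Src (l : Fin L) (x : F) : Prop where
  mem : x ∈ Cl (b.t l)
  mul_P : x * b.P l = x
  P_mul : b.P l * x = 0
  C_mul : b.C l * x = 0

theorem src_y (l : Fin L) : b.Src l (b.y l) := ⟨b.y_mem l, b.y_P l, b.P_y l, b.C_y l⟩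

variable {b}

theorem Src.smul {l : Fin L} {x : F} (h : b.Src l x) (r : ℝ) : b.Src l (r • x) :=
  ⟨Coin.smul_mem' h.mem r, by rw [smul_mul_assoc, h.mul_P],
    by rw [mul_smul_comm, h.P_mul, smul_zero], by rw [mul_smul_comm, h.C_mul, smul_zero]⟩

theorem Src.sub {l : Fin L} {x x' : F} (h : b.Src l x) (h' : b.Src l x') : b.Src l (x - x') :=
  ⟨sub_mem h.mem h'.mem, by rw [sub_mul, h.mul_P, h'.mul_P],
    by rw [mul_sub, h.P_mul, h'.P_mul, sub_zero], by rw [mul_sub, h.C_mul, h'.C_mul, sub_zero]⟩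

theorem Src.map {l : Fin L} {x : F} (h : b.Src l x) : b.Src l (σ x) ∧ b.Src l (σ.symm x) := by
  have hP : σ.symm (b.P l) = b.P l := by
    conv_lhs => rw [← b.fix_P l]
    exact σ.symm_apply_apply _
  have hC : σ.symm (b.C l) = b.C l := by
    conv_lhs => rw [← b.fix_C l]
    exact σ.symm_apply_apply _
  refine ⟨⟨(b.map_mem l h.mem).1, ?_, ?_, ?_⟩, ⟨(b.map_mem l h.mem).2, ?_, ?_, ?_⟩⟩
  · rw [← b.fix_P l, ← map_mul, h.mul_P]
  · rw [← b.fix_P l, ← map_mul, h.P_mul, map_zero]
  · rw [← b.fix_C l, ← map_mul, h.C_mul, map_zero]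
  · rw [← hP, ← map_mul, h.mul_P]
  · rw [← hP, ← map_mul, h.P_mul, map_zero]
  · rw [← hC, ← map_mul, h.C_mul, map_zero]

theorem Src.mul_C {l : Fin L} {x : F} (h : b.Src l x) : x * b.C l = 0 := by
  rw [← h.mul_P, mul_assoc, b.P_C, mul_zero]

variable (b)

/-- The unit `G` of everything away from `P`. -/
def G (l : Fin L) : F := bump (1 / 4) (1 - b.P l)

theorem sa_one_sub_P (l : Fin L) : IsSelfAdjoint (1 - b.P l) :=
  (IsSelfAdjoint.one F).sub (IsSelfAdjoint.of_nonneg (b.P_pos l).1)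

theorem G_mem (l : Fin L) : b.G l ∈ Cl (b.t l) :=
  Coin.cfc_mem' (isClosed_Cl _) (sub_mem (one_mem _) (b.P_mem l)) _

theorem G_commute (i j : Fin L) : Commute (b.G i) (b.G j) := by
  rcases eq_or_ne i j with rfl | h
  · exact Commute.refl _
  · exact b.comm i j h _ (b.G_mem i) _ (b.G_mem j)

theorem C_commute (i j : Fin L) : Commute (b.C i) (b.C j) := by
  rcases eq_or_ne i j with rfl | h
  · exact Commute.refl _
  · exact b.comm i j h _ (b.C_mem i) _ (b.C_mem j)

theorem G_fix (l : Fin L) : σ (b.G l) = b.G l :=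
  fixed_cfc _ (continuous_bump _) (b.sa_one_sub_P l) (by rw [map_sub, map_one, b.fix_P])

theorem G_C (l : Fin L) : b.G l * b.C l = b.C l :=
  cfc_mul_self_eq (b.sa_one_sub_P l) (by rw [sub_mul, one_mul, b.P_C, sub_zero]) (continuous_bump _)
    (bump_apply_one (by norm_num) (by norm_num))

theorem G_star (l : Fin L) : star (b.G l) = b.G l := (isSelfAdjoint_bump _ _).star_eq

theorem C_G (l : Fin L) : b.C l * b.G l = b.C l := by
  have := congrArg star (b.G_C l)
  rwa [star_mul, b.G_star l,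
    (IsSelfAdjoint.of_nonneg (b.C_pos l).1).star_eq] at this

theorem G_nonneg (l : Fin L) : 0 ≤ b.G l ∧ b.G l ≤ 1 := ⟨bump_nonneg _ _, bump_le_one _ _⟩

variable {b}

theorem Src.G_mul {l : Fin L} {x : F} (h : b.Src l x) : b.G l * x = x :=
  cfc_mul_self_eq (b.sa_one_sub_P l) (by rw [sub_mul, one_mul, h.P_mul, sub_zero]) (continuous_bump _)
    (bump_apply_one (by norm_num) (by norm_num))

theorem Src.mul_G {l : Fin L} {x : F} (h : b.Src l x) : x * b.G l = 0 := by
  have h1 : (1 - b.P l) * star x = 0 := by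
    rw [← (b.sa_one_sub_P l).star_eq, ← star_mul, mul_sub, mul_one, h.mul_P, sub_self, star_zero]
  have h2 : b.G l * star x = 0 :=
    cfc_mul_eq_zero (b.sa_one_sub_P l) h1 (continuous_bump _)
      (bump_apply_zero (by norm_num) (by norm_num))
  have := congrArg star h2
  rwa [star_mul, star_star, star_zero, b.G_star l]
    at this

theorem Src.star_mul_self_le {l : Fin L} {x : F} (h : b.Src l x) (h1 : ‖x‖ ≤ 1) :
    star x * x ≤ b.P l := by
  have e : star x * x = b.P l * (star x * x) * b.P l := by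
    conv_lhs => rw [← h.mul_P, star_mul, (IsSelfAdjoint.of_nonneg (b.P_pos l).1).star_eq]
    simp only [mul_assoc]
  rw [e]
  have h2 := star_left_conjugate_le_conjugate (star_mul_self_le_one h1) (b.P l)
  rw [(IsSelfAdjoint.of_nonneg (b.P_pos l).1).star_eq, one_pow, one_smul, mul_one] at h2
  exact h2.trans (commute_mul_le (b.P_pos l).1 (b.P_pos l).2 (Commute.refl _))

/-- Block values: `x x*` is small in every state. -/
theorem Src.dim_le {l : Fin L} {x : F} (h : b.Src l x) (h1 : ‖x‖ ≤ 1) (d : Dim (Cl (b.t l))) :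
    d.d (x * star x) ≤ qp := by
  rw [← d.flip h.mem]
  exact (d.mono_sqLe (posIn (mul_mem (star_mem h.mem) h.mem) (star_mul_self_nonneg x))
    (posIn (b.P_mem l) (b.P_pos l).1) (Coin.sqLe_iff.2 (h.star_mul_self_le h1))).trans (b.dim_P l d)

theorem Src.commute_G {l : Fin L} {x : F} (h : b.Src l x) (j : Fin L) :
    Commute (b.G j) (x * star x) := by
  rcases eq_or_ne j l with rfl | hj
  · have e := congrArg star h.G_mul
    rw [star_mul, b.G_star j] at e
    show b.G j * (x * star x) = x * star x * b.G j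
    rw [← mul_assoc, h.G_mul, mul_assoc, e]
  · exact b.comm j l hj _ (b.G_mem j) _ (mul_mem h.mem (star_mem h.mem))

theorem Src.commute_C {l : Fin L} {x : F} (h : b.Src l x) (j : Fin L) :
    Commute (b.C j) (x * star x) := by
  rcases eq_or_ne j l with rfl | hj
  · have e := congrArg star h.C_mul
    rw [star_mul, (IsSelfAdjoint.of_nonneg (b.C_pos j).1).star_eq, star_zero] at e
    show b.C j * (x * star x) = x * star x * b.C j
    rw [← mul_assoc, h.C_mul, mul_assoc, e, zero_mul, mul_zero]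
  · exact b.comm j l hj _ (b.C_mem j) _ (mul_mem h.mem (star_mem h.mem))

variable (b)

/-- The exclusion `c l`. -/
def c (l : Fin L) : F := oth b.G l

theorem c_mem (l : Fin L) : b.c l ∈ Cl b.supp := oth_mem fun j => b.le_supp j (b.G_mem j)

theorem c_pos (l : Fin L) : 0 ≤ b.c l ∧ b.c l ≤ 1 :=
  ⟨oth_nonneg b.G_commute fun j => (b.G_nonneg j).1, oth_le_one b.G_commute b.G_nonneg⟩

theorem c_star (l : Fin L) : star (b.c l) = b.c l :=
  (IsSelfAdjoint.of_nonneg (b.c_pos l).1).star_eq

theorem c_fix (l : Fin L) : σ (b.c l) = b.c l := by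
  rw [c, oth, map_list_prod, List.map_map]
  congr 1
  refine List.map_congr_left fun j _ => ?_
  show σ (if j = l then 1 else b.G j) = _
  split_ifs
  exacts [map_one σ, b.G_fix j]

theorem commute_c {l : Fin L} {x : F} (hx : x ∈ Cl (b.t l)) : Commute x (b.c l) :=
  commute_oth fun j hj => b.comm l j hj.symm _ hx _ (b.G_mem j)

variable {b}

theorem Src.mul_c {l m : Fin L} {x : F} (h : b.Src l x) (hne : l ≠ m) : x * b.c m = 0 :=
  mul_oth_eq_zero b.G_commute hne h.mul_G

variable (b)

/-- The combination of one source per block. -/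
def comb (x : Fin L → F) : F := ∑ l, b.c l * x l

theorem comb_mem {x : Fin L → F} (h : ∀ l, x l ∈ Cl (b.t l)) : b.comb x ∈ Cl b.supp :=
  sum_mem fun l _ => mul_mem (b.c_mem l) (b.le_supp l (h l))

/-- Sources of different blocks combine orthogonally. -/
theorem comb_mul_star {x : Fin L → F} (h : ∀ l, b.Src l (x l)) :
    b.comb x * star (b.comb x) = ∑ l, b.c l * (x l * star (x l)) * b.c l := by
  simp only [comb, star_sum, mul_sum, sum_mul]
  refine sum_congr rfl fun l _ => ?_
  rw [sum_eq_single l]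
  · rw [star_mul, b.c_star]; simp only [mul_assoc]
  · intro m _ hm
    rw [star_mul, b.c_star, (b.commute_c (star_mem (h l).mem)).eq]
    calc b.c m * x m * (b.c l * star (x l)) = b.c m * (x m * b.c l) * star (x l) := by
          simp only [mul_assoc]
      _ = 0 := by rw [(h m).mul_c hm, mul_zero, zero_mul]
  · simp

theorem comb_mul_star_le {x : Fin L → F} (h : ∀ l, b.Src l (x l)) :
    b.comb x * star (b.comb x) ≤ ∑ l, x l * star (x l) := by
  rw [b.comb_mul_star h]
  exact sum_le_sum fun l _ => conj_le_of_commute (b.c_pos l).1 (b.c_pos l).2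
    (mul_star_self_nonneg _) (b.commute_c (mul_mem (h l).mem (star_mem (h l).mem))).symm

theorem commute_comb {a : F} {x : Fin L → F} (h : ∀ l, b.Src l (x l))
    (hc : ∀ l, Commute a (b.c l)) (ha : ∀ l, Commute a (x l * star (x l))) :
    Commute a (b.comb x * star (b.comb x)) := by
  rw [b.comb_mul_star h]
  exact Commute.sum_right _ _ _ fun l _ => ((hc l).mul_right (ha l)).mul_right (hc l)

end Bank

end

end Vale.Agent.P095.Amen.Square
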