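import Vale.Agent.P095.Amen.Square.Prod

/-!
# P095 Square: the bank of blocks from letters, comparison and the row element
-/

namespace Vale.Agent.P095.Amen.Square

open Vale.Agent.P101.KR Finset
open scoped CStarAlgebra

noncomputable section

set_option linter.unusedSectionVars false

variable {F : Type} [CStarAlgebra F] [PartialOrder F] [StarOrderedRing F]

/-- The numbers of blocks and their values. -/
theorem counts {n : ℕ} (hn : 0 < n) {θ : ℝ} (hθ : θ = 1 / (32 * n)) :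
    0 < θ ∧ θ ≤ 1 / 32 ∧
      ((8 : ℕ) ^ (n - 1) : ℕ) * (1 / 8 + θ) ^ n ≤ (1 / 6 : ℝ) ∧
      2 * (1 / 8 + θ) ^ n ≤ (1 : ℝ) ∧
      1 / 16 ≤ (((8 : ℕ) ^ (n - 1) : ℕ) : ℝ) *
        ((1 / 8 - θ) ^ n * (1 - 2 * (1 / 8 + θ) ^ n) ^ ((8 : ℕ) ^ (n - 1))) := by
  obtain ⟨m, rfl⟩ : ∃ m, n = m + 1 := ⟨n - 1, by omega⟩
  set u : ℝ := 1 / (4 * (m + 1 : ℕ)) with hu
  have hn1 : (1 : ℝ) ≤ (m + 1 : ℕ) := by exact_mod_cast Nat.succ_le_succ (Nat.zero_le m)
  have hu0 : 0 < u := by positivity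
  have hu1 : u ≤ 1 / 4 := by rw [hu, div_le_iff₀ (by positivity)]; linarith
  have hnu : ((m + 1 : ℕ) : ℝ) * u = 1 / 4 := by rw [hu]; field_simp
  have hθu : θ = 1 / 8 * u := by rw [hθ, hu]; field_simp; ring
  have hlow : 3 / 4 ≤ (1 - u) ^ (m + 1) := by
    have := one_add_mul_le_pow (show (-2 : ℝ) ≤ -u by linarith) (m + 1)
    rw [mul_neg, hnu, ← sub_eq_add_neg] at this
    linarith [show (1 + -u) ^ (m + 1) = (1 - u) ^ (m + 1) by rw [← sub_eq_add_neg]]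
  have hhigh : (1 + u) ^ (m + 1) ≤ 4 / 3 := by
    have h1 : (1 + u) ^ (m + 1) * (1 - u) ^ (m + 1) ≤ 1 := by
      rw [← mul_pow]
      exact pow_le_one₀ (mul_nonneg (by linarith) (by linarith)) (by nlinarith)
    nlinarith [pow_nonneg (show (0 : ℝ) ≤ 1 + u by linarith) (m + 1)]
  rw [Nat.add_sub_cancel]
  set L : ℕ := 8 ^ m
  have h8 : (L : ℝ) * (1 / 8) ^ (m + 1) = 1 / 8 := by
    rw [pow_succ, ← mul_assoc, Nat.cast_pow, ← mul_pow]; norm_num
  have hL1 : (1 : ℝ) ≤ L := by exact_mod_cast Nat.one_le_pow _ _ (by norm_num)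
  have hp : (1 / 8 + θ) ^ (m + 1) = (1 / 8) ^ (m + 1) * (1 + u) ^ (m + 1) := by
    rw [← mul_pow, hθu]; congr 1; ring
  have hq : (1 / 8 - θ) ^ (m + 1) = (1 / 8) ^ (m + 1) * (1 - u) ^ (m + 1) := by
    rw [← mul_pow, hθu]; congr 1; ring
  have hup : (L : ℝ) * (1 / 8 + θ) ^ (m + 1) ≤ 1 / 6 := by
    rw [hp, ← mul_assoc, h8]; linarith
  have hp0 : 0 ≤ (1 / 8 + θ) ^ (m + 1) := pow_nonneg (by rw [hθu]; positivity) _
  have hsmall : 2 * (1 / 8 + θ) ^ (m + 1) ≤ 1 := by nlinarith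
  refine ⟨by rw [hθu]; positivity, by rw [hθu]; linarith, hup, hsmall, ?_⟩
  have hexc : 2 / 3 ≤ (1 - 2 * (1 / 8 + θ) ^ (m + 1)) ^ L := by
    have := one_add_mul_le_pow (show (-2 : ℝ) ≤ -(2 * (1 / 8 + θ) ^ (m + 1)) by linarith) L
    rw [← sub_eq_add_neg] at this
    linarith [show (1 - 2 * (1 / 8 + θ) ^ (m + 1)) ^ L = (1 + -(2 * (1 / 8 + θ) ^ (m + 1))) ^ L by
      rw [← sub_eq_add_neg]]
  rw [hq, ← mul_assoc, ← mul_assoc, h8]
  calc (1 : ℝ) / 16 = 1 / 8 * (3 / 4) * (2 / 3) := by norm_num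
    _ ≤ _ := mul_le_mul (mul_le_mul_of_nonneg_left hlow (by norm_num)) hexc (by norm_num)
      (mul_nonneg (by norm_num) (le_trans (by norm_num) hlow))

/-- The root of a cut, and a ramp which is a unit for it. -/
theorem root_cut (u : F) :
    cfc Real.sqrt (cut (3 / 4) u) * cfc Real.sqrt (cut (3 / 4) u) = cut (3 / 4) u ∧
      cfc Real.sqrt (cut (3 / 4) u) * bump (3 / 4) u = cfc Real.sqrt (cut (3 / 4) u) := by
  set C := cut (3 / 4) u
  have hsa : IsSelfAdjoint C := isSelfAdjoint_cut _ _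
  constructor
  · rw [← cfc_mul Real.sqrt Real.sqrt C Real.continuous_sqrt.continuousOn
      Real.continuous_sqrt.continuousOn]
    exact (cfc_congr fun t ht => Real.mul_self_sqrt
      (spectrum_nonneg_of_nonneg (Coin.cut_nonneg' _ _) ht)).trans (cfc_id' ℝ C hsa)
  · have h1 : C * bump (3 / 4) u = C := by
      have := congrArg star (bump_mul_cut (η := 3 / 4) (δ := 3 / 4) (by norm_num) le_rfl u)
      rwa [star_mul, (isSelfAdjoint_bump _ _).star_eq, hsa.star_eq] at this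
    have := cfc_mul_eq_zero hsa (b := 1 - bump (3 / 4) u) (by rw [mul_sub, mul_one, h1, sub_self])
      Real.continuous_sqrt Real.sqrt_zero
    rw [mul_sub, mul_one, sub_eq_zero] at this
    exact this.symm

/-- A left unit passes to a ramp. -/
theorem unit_mul_bump {m e : F} (hm : IsSelfAdjoint m) (he : IsSelfAdjoint e) (hc : Commute m e)
    (h : e * m = m) {η : ℝ} (hη : 0 < η) : e * bump η m = bump η m ∧ bump η m * e = bump η m := by
  have h2 := cfc_mul_eq_zero hm (b := 1 - e) (by rw [mul_sub, mul_one, hc.eq, h, sub_self])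
    (continuous_bump η) (bump_apply_zero hη (by linarith))
  rw [mul_sub, mul_one, sub_eq_zero] at h2
  have h3 : bump η m * e = bump η m := h2.symm
  have := congrArg star h3
  rw [star_mul, he.star_eq, (isSelfAdjoint_bump η m).star_eq] at this
  exact ⟨this, h3⟩

/-- The marked element of comparison, rescaled. -/
theorem scale_x {s' s1 x : F} (hs0 : 0 ≤ s') (hs1 : s' ≤ 1) (h : s' * s1 = s1)
    (hx : star x * x = cut (1 / 2) s') :
    star (Real.sqrt 2 • x) * (Real.sqrt 2 • x) * s1 = s1 ∧ ‖Real.sqrt 2 • x‖ ≤ 1 := by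
  have hsa := IsSelfAdjoint.of_nonneg hs0
  have h2 : Real.sqrt 2 * Real.sqrt 2 = 2 := Real.mul_self_sqrt (by norm_num)
  constructor
  · rw [star_smul, star_trivial (Real.sqrt 2), smul_mul_assoc, mul_smul_comm, smul_smul, h2, hx,
      smul_mul_assoc, cut, cfc_mul_eq_smul hsa (r := 1) (by rw [one_smul]; exact h) (by fun_prop),
      smul_smul]
    norm_num
  · have h1 : ‖x‖ * ‖x‖ ≤ 1 / 2 := by
      rw [← CStarRing.norm_star_mul_self, hx]
      refine norm_cfc_le (by norm_num) fun u hu => ?_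
      have := (le_algebraMap_iff_spectrum_le hsa).1 (hs1.trans_eq (map_one _).symm) u hu
      rw [Real.norm_of_nonneg (le_max_right _ _)]
      exact max_le (by linarith) (by norm_num)
    rw [norm_smul, Real.norm_of_nonneg (Real.sqrt_nonneg _)]
    nlinarith [mul_nonneg (Real.sqrt_nonneg 2) (norm_nonneg x)]

/-- What a block needs of the letters. -/
structure Prep (σ : F ≃⋆ₐ[ℂ] F) (θ : ℝ) where
  t : Set F
  countable : t.Countable
  image_eq : σ '' t = t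
  S1 : Cl t
  S' : Cl t
  E : Cl t
  X : Cl t
  R0 : Cl t
  C0 : Cl t
  fix_S1 : σ S1 = S1
  fix_S' : σ S' = S'
  fix_E : σ E = E
  fix_C : σ C0 = C0
  pos_S1 : 0 ≤ (S1 : F) ∧ (S1 : F) ≤ 1
  pos_S' : 0 ≤ (S' : F) ∧ (S' : F) ≤ 1
  pos_R : 0 ≤ (R0 : F)
  pos_C : 0 ≤ (C0 : F) ∧ (C0 : F) ≤ 1
  comm : Commute S1 S'
  S'_S1 : S' * S1 = S1
  S'_X : S' * X = 0
  E_X : E * X = X
  X_X : star X * X * S1 = S1
  norm_X : ‖X‖ ≤ 1
  R_S1 : R0 * S1 = R0
  S'_C : S' * C0 = 0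
  E_C : E * C0 = 0
  C_E : C0 * E = 0
  dim_S' : ∀ d : Dim (Cl t), d.d S' ≤ 1 / 8 + θ
  dim_R : ∀ d : Dim (Cl t), 1 / 8 - θ ≤ d.d ((R0 * R0 : Cl t) : F)
  full_R : FullW (Cl t) ((R0 * R0 : Cl t) : F)
  full_C : FullW (Cl t) ((C0 * C0 : Cl t) : F)

/-- Letters and comparison give what a block needs. -/
theorem exists_prep (hC : CompareTarget) {σ : F ≃⋆ₐ[ℂ] F} (hS : Setting σ) {θ : ℝ} (hθ : θ ≤ 1 / 32)
    (Le : Letters σ (1 / 8) θ) : Nonempty (Prep σ θ) := by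
  have hpos : ∀ u ∈ ({Le.s, Le.s', Le.m, Le.e, Le.c} : Set F), 0 ≤ u ∧ u ≤ 1 := fun u hu =>
    ⟨Coin.sqLe_iff.1 (Le.pos u hu).1, Coin.sqLe_iff.1 (Le.pos u hu).2⟩
  obtain ⟨hs0, -⟩ := hpos Le.s (by simp)
  obtain ⟨hs'0, hs'1⟩ := hpos Le.s' (by simp)
  obtain ⟨hm0, -⟩ := hpos Le.m (by simp)
  obtain ⟨he0, -⟩ := hpos Le.e (by simp)
  obtain ⟨hc0, hc1⟩ := hpos Le.c (by simp)
  obtain ⟨x0, η0, hη0, hx0, hx0m⟩ := hC F (hasCopies_of_setting hS) hS.central hS.noChar Le.s' Le.m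
    (1 / 8 + θ) (1 / 2 - θ) (1 / 2) Le.m_full Le.s'_le Le.m_ge (by linarith) (by norm_num)
  obtain ⟨Sp, hSp, -, hSpd⟩ := Le.s'_le
  obtain ⟨Sq, hSq, -, hSqd⟩ := Le.s_ge
  obtain ⟨K1, y1, hy1⟩ := Le.s_full
  obtain ⟨K2, y2, hy2⟩ := fullPos_sq (IsSelfAdjoint.of_nonneg hc0) Le.c_full
  obtain ⟨hrr, hrs⟩ := root_cut Le.s
  obtain ⟨hes, hse⟩ := unit_mul_bump (IsSelfAdjoint.of_nonneg hm0) (IsSelfAdjoint.of_nonneg he0)
    (Le.comm Le.m (by simp) Le.e (by simp)) Le.e_m hη0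
  obtain ⟨hs's1, hs1s'⟩ := unit_mul_bump (IsSelfAdjoint.of_nonneg hs0) (IsSelfAdjoint.of_nonneg hs'0)
    (Le.comm Le.s (by simp) Le.s' (by simp)) Le.s'_s (by norm_num : (0 : ℝ) < 3 / 4)
  obtain ⟨hxs, hxn⟩ := scale_x hs'0 hs'1 hs's1 hx0
  have hex : Le.e * x0 = x0 := by rw [← hx0m, ← mul_assoc, hes, hx0m]
  have hs'x : Le.s' * x0 = 0 := by rw [← hex, ← mul_assoc, Le.s'_e, zero_mul]
  set A := (({Le.s, Le.s', Le.m, Le.e, Le.c, x0} : Set F) ∪ Sp ∪ Sq ∪ Set.range y1 ∪ Set.range y2)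
  have hA : A.Countable := (((((Set.toFinite _).countable.union hSp).union hSq).union
    (Set.countable_range y1)).union (Set.countable_range y2))
  have hsub := subset_orbit σ A
  have hmem : ∀ u ∈ ({Le.s, Le.s', Le.m, Le.e, Le.c, x0} : Set F), u ∈ Cl (orbit σ A) := fun u hu =>
    subset_Cl _ (hsub (Or.inl (Or.inl (Or.inl (Or.inl hu)))))
  have hSpt : Cl Sp ≤ Cl (orbit σ A) := Cl_mono fun u hu => hsub (Or.inl (Or.inl (Or.inl (Or.inr hu))))
  have hSqt : Cl Sq ≤ Cl (orbit σ A) := Cl_mono fun u hu => hsub (Or.inl (Or.inl (Or.inr hu)))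
  have hcl := isClosed_Cl (orbit σ A)
  exact ⟨{
    t := orbit σ A
    countable := countable_orbit σ hA
    image_eq := image_orbit σ A
    S1 := ⟨bump (3 / 4) Le.s, Coin.cfc_mem' hcl (hmem _ (Or.inl rfl)) _⟩
    S' := ⟨Le.s', hmem _ (by simp)⟩
    E := ⟨Le.e, hmem _ (by simp)⟩
    X := ⟨Real.sqrt 2 • x0, Coin.smul_mem' (hmem _ (by simp)) _⟩
    R0 := ⟨cfc Real.sqrt (cut (3 / 4) Le.s),
      Coin.cfc_mem' hcl (Coin.cfc_mem' hcl (hmem _ (Or.inl rfl)) _) _⟩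
    C0 := ⟨Le.c, hmem _ (by simp)⟩
    fix_S1 := fixed_cfc _ (continuous_bump _) (IsSelfAdjoint.of_nonneg hs0) Le.fix_s
    fix_S' := Le.fix_s'
    fix_E := Le.fix_e
    fix_C := Le.fix_c
    pos_S1 := ⟨bump_nonneg _ _, bump_le_one _ _⟩
    pos_S' := ⟨hs'0, hs'1⟩
    pos_R := cfc_nonneg fun _ _ => Real.sqrt_nonneg _
    pos_C := ⟨hc0, hc1⟩
    comm := Subtype.ext (hs1s'.trans hs's1.symm)
    S'_S1 := Subtype.ext hs's1
    S'_X := Subtype.ext (show Le.s' * (Real.sqrt 2 • x0) = 0 by rw [mul_smul_comm, hs'x, smul_zero])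
    E_X := Subtype.ext (show Le.e * (Real.sqrt 2 • x0) = Real.sqrt 2 • x0 by rw [mul_smul_comm, hex])
    X_X := Subtype.ext hxs
    norm_X := hxn
    R_S1 := Subtype.ext hrs
    S'_C := Subtype.ext Le.s'_c
    E_C := Subtype.ext Le.e_c
    C_E := Subtype.ext (show Le.c * Le.e = 0 by
      rw [(Le.comm Le.c (by simp) Le.e (by simp)).eq, Le.e_c])
    dim_S' := fun d => hSpd (d.restrict hSpt)
    dim_R := fun d => le_of_le_of_eq (hSqd (d.restrict hSqt)) (congrArg d.d hrr.symm)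
    full_R := by
      show FullW (Cl (orbit σ A)) (cfc Real.sqrt (cut (3 / 4) Le.s) * cfc Real.sqrt (cut (3 / 4) Le.s))
      rw [hrr]
      exact fullW_of_subset (fun u hu => hsub (Or.inl (Or.inr hu))) hy1
    full_C := fullW_of_subset (fun u hu => hsub (Or.inr hu)) hy2 }⟩

/-- The closed algebra of other copies commutes. -/
theorem commute_blocks {t : Set F} {L n : ℕ} (φ : Fin L → Fin n → Cl t →⋆ₐ[ℂ] F)
    (h : ∀ l m i j, (l, i) ≠ (m, j) → ∀ a b, Commute (φ l i a) (φ m j b)) {l m : Fin L} (hlm : l ≠ m)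
    {u w : F} (hu : u ∈ Cl (⋃ i, φ l i '' {a : Cl t | (a : F) ∈ t}))
    (hw : w ∈ Cl (⋃ i, φ m i '' {a : Cl t | (a : F) ∈ t})) : Commute u w := by
  have key : ∀ (m : Fin L) (v : F), (∀ i a, Commute v (φ m i a)) →
      ∀ w ∈ Cl (⋃ i, φ m i '' {a : Cl t | (a : F) ∈ t}), Commute v w := by
    intro m v hv w hw
    refine commute_of_mem_Cl (fun z hz => ?_) hw
    obtain ⟨i, a, -, rfl⟩ := Set.mem_iUnion.1 hz
    exact ⟨hv i a, by rw [← map_star]; exact hv i _⟩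
  refine key m u (fun j b => ?_) w hw
  exact (key l _ (fun i a => (h l m i j (by simp [hlm]) a b).symm) u hu).symm

/-- A bank of blocks at any accuracy. -/
theorem exists_bank (hC : CompareTarget) (hL : LettersTarget) (hR : RowTarget) {σ : F ≃⋆ₐ[ℂ] F}
    (hS : Setting σ) {ε : ℝ} (hε : 0 < ε) :
    ∃ (L : ℕ) (qm qp : ℝ), 0 < L ∧ 0 ≤ qp ∧ 2 * qp ≤ 1 ∧ 0 ≤ qm ∧
      1 / 16 ≤ L * (qm * (1 - 2 * qp) ^ L) ∧ (L : ℝ) * qp ≤ 1 / 6 ∧
      Nonempty (Bank σ L qm qp ε) := by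
  obtain ⟨n, hn, hrow⟩ := hR ε hε
  obtain ⟨hθ0, hθ1, hup, hsmall, hlow⟩ := counts hn (θ := 1 / (32 * n)) rfl
  generalize (1 : ℝ) / (32 * n) = θ at hθ0 hθ1 hup hsmall hlow
  obtain ⟨Le⟩ := hL F σ hS (1 / 8) θ hθ0 (by linarith) (by norm_num)
  obtain ⟨p⟩ := exists_prep hC hS hθ1 Le
  obtain ⟨κ⟩ := hS.copies p.t p.countable p.image_eq
  let φ : Fin (8 ^ (n - 1)) → Fin n → Cl p.t →⋆ₐ[ℂ] F := fun l i => κ.hom (finProdFinEquiv (l, i) : ℕ)
  have hcb : ∀ l m i j, (l, i) ≠ (m, j) → ∀ a b, Commute (φ l i a) (φ m j b) := fun l m i j h a b =>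
    κ.comm _ _ (fun e => h (finProdFinEquiv.injective (Fin.ext e))) a b
  have hcl : ∀ l i j, i ≠ j → ∀ a b, Commute (φ l i a) (φ l j b) := fun l i j h =>
    hcb l l i j (by simp [h])
  have hφ : ∀ l i a, φ l i a ∈ Cl (⋃ i, φ l i '' {a : Cl p.t | (a : F) ∈ p.t}) := fun l i =>
    map_mem_Cl (φ l i) fun a ha => subset_Cl _ (Set.mem_iUnion.2 ⟨i, a, ha, rfl⟩)
  have hfix : ∀ l i (a : Cl p.t), σ a = a → σ (φ l i a) = φ l i a := fun l i a => κ.equiv _ a a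
  have hnorm : ∀ {u : F}, 0 ≤ u → u ≤ 1 → ‖u‖ ≤ 1 := fun h h' =>
    (CStarAlgebra.norm_le_one_iff_of_nonneg _ h).2 h'
  have hrows := fun l => hrow F σ p.t p.countable p.image_eq p.S1 p.S' p.E p.X p.fix_S1 p.fix_S'
    p.fix_E p.pos_S1.1.isSelfAdjoint.star_eq p.pos_S'.1.isSelfAdjoint.star_eq
    (hnorm p.pos_S1.1 p.pos_S1.2) (hnorm p.pos_S'.1 p.pos_S'.2) p.norm_X p.comm p.S'_S1 p.S'_X
    p.E_X p.X_X ⟨φ l, hcl l, fun i => κ.equiv _⟩ (fun _ => 1) (fun _ => map_one σ)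
    (fun _ _ => ⟨Commute.one_left _, Commute.one_left _⟩)
    (fun _ => by rw [star_one, one_mul, one_mul])
  choose y hym hyn hya hy0 hyP hPy hyl hyfix using hrows
  refine ⟨8 ^ (n - 1), (1 / 8 - θ) ^ n, (1 / 8 + θ) ^ n, pow_pos (by norm_num) _,
    pow_nonneg (by linarith) _, hsmall, pow_nonneg (by linarith) _, hlow, hup, ⟨?_⟩⟩
  refine
    { t := fun l => ⋃ i, φ l i '' {a : Cl p.t | (a : F) ∈ p.t}
      P := fun l => pi (φ l) p.S'
      C := fun l => pi (φ l) p.C0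
      R := fun l => pi (φ l) p.R0
      y := y
      countable := fun l => Set.countable_iUnion fun i =>
        (p.countable.preimage Subtype.coe_injective).image _
      image_eq := fun l => ?_
      comm := fun l m hlm u hu w hw => commute_blocks φ hcb hlm hu hw
      P_mem := fun l => pi_mem (hφ l) _
      C_mem := fun l => pi_mem (hφ l) _
      R_mem := fun l => pi_mem (hφ l) _
      y_mem := fun l => ?_
      P_pos := fun l => ⟨pi_pos (hcl l) p.pos_S'.1, pi_le_one (hcl l) p.pos_S'.1 p.pos_S'.2⟩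
      C_pos := fun l => ⟨pi_pos (hcl l) p.pos_C.1, pi_le_one (hcl l) p.pos_C.1 p.pos_C.2⟩
      R_star := fun l => (pi_pos (hcl l) p.pos_R).isSelfAdjoint
      fix_P := fun l => pi_fixed (hfix l) p.fix_S'
      fix_C := fun l => pi_fixed (hfix l) p.fix_C
      y_P := hyP
      P_y := hPy
      P_C := fun l => ?_
      C_y := fun l => ?_
      norm_y := hyn
      almost := hya
      low := fun l => ?_
      dim_P := fun l d => (dim_pi (hcl l) (hφ l) d p.pos_S'.1 le_rfl (by linarith) fun d' =>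
        ⟨d'.nonneg (posIn p.S'.2 p.pos_S'.1), p.dim_S' d'⟩).2
      dim_R := fun l d => ?_
      full_R := fun l => ?_
      full_C := fun l => ?_ }
  · rw [Set.image_iUnion]
    refine Set.iUnion_congr fun i => ?_
    ext w
    constructor
    · rintro ⟨_, ⟨a, ha, rfl⟩, rfl⟩
      have h : σ (a : F) ∈ p.t := (Set.ext_iff.1 p.image_eq _).1 (Set.mem_image_of_mem σ ha)
      exact ⟨⟨σ (a : F), subset_Cl p.t h⟩, h, (κ.equiv _ a ⟨σ (a : F), subset_Cl p.t h⟩ rfl).symm⟩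
    · rintro ⟨a, ha, rfl⟩
      obtain ⟨a', ha', e⟩ := (Set.ext_iff.1 p.image_eq _).2 (ha : (a : F) ∈ p.t)
      exact ⟨_, ⟨⟨a', subset_Cl p.t ha'⟩, ha', rfl⟩, κ.equiv _ ⟨a', subset_Cl p.t ha'⟩ a e⟩
  · refine (Cl_le (isClosed_Cl _) ?_) (hym l)
    rintro v (hv | ⟨i, rfl⟩)
    · obtain ⟨i, a, rfl⟩ := Set.mem_iUnion.1 hv
      exact hφ l i a
    · exact one_mem _
  · rw [pi_mul (hcl l), p.S'_C, pi_eq]
    exact List.prod_eq_zero (List.mem_map.2 ⟨⟨0, hn⟩, List.mem_finRange _, map_zero _⟩)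
  · have h := hyfix l (1 - pi (φ l) p.C0) fun i => by
      rw [one_mul]
      show (1 - pi (φ l) p.C0) * φ l i p.E = φ l i p.E
      rw [sub_mul, one_mul, pi_mul_eq_zero (hcl l) i p.E_C p.C_E, sub_zero]
    rwa [sub_mul, one_mul, sub_eq_self] at h
  · set q := pi (φ l) p.S1
    have hRq : pi (φ l) p.R0 * q = pi (φ l) p.R0 := by rw [pi_mul (hcl l), p.R_S1]
    have hqR : q * pi (φ l) p.R0 = pi (φ l) p.R0 := by
      have := congrArg star hRq
      rwa [star_mul, (pi_pos (hcl l) p.pos_S1.1).isSelfAdjoint.star_eq,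
        (pi_pos (hcl l) p.pos_R).isSelfAdjoint.star_eq] at this
    have h := IsSelfAdjoint.conjugate_le_conjugate
      (show (1 / 2 : ℝ) • (q * q) ≤ star (y l) * y l from Coin.sqLe_iff.1 (hyl l))
      (pi_pos (hcl l) p.pos_R).isSelfAdjoint
    rw [mul_smul_comm, smul_mul_assoc] at h
    refine le_of_eq_of_le ?_ h
    congr 1
    calc pi (φ l) p.R0 * pi (φ l) p.R0 = (pi (φ l) p.R0 * q) * (q * pi (φ l) p.R0) := by rw [hRq, hqR]
      _ = _ := by simp only [mul_assoc]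
  · rw [pi_mul (hcl l)]
    have hu : (0 : F) ≤ ((p.R0 * p.R0 : Cl p.t) : F) := p.pos_R.isSelfAdjoint.mul_self_nonneg
    exact (dim_pi (hcl l) (hφ l) d hu (b := 1) (by linarith) (by linarith) fun d' =>
      ⟨p.dim_R d', d'.le_one (posIn (p.R0 * p.R0).2 hu)⟩).1
  · rw [pi_mul (hcl l)]; exact fullW_pi (hcl l) (hφ l) p.full_R
  · rw [pi_mul (hcl l)]; exact fullW_pi (hcl l) (hφ l) p.full_C

end

end Vale.Agent.P095.Amen.Square
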