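import Vale.Agent.P095.Amen.Square.Bank

/-!
# P095 Square: the guarded element `z = D⁻¹ T`
-/

namespace Vale.Agent.P095.Amen.Square

open Vale.Agent.P101.KR Finset
open scoped CStarAlgebra

noncomputable section

set_option linter.unusedSectionVars false

variable {F : Type} [CStarAlgebra F] [PartialOrder F] [StarOrderedRing F]

theorem map_real_smul (σ : F ≃⋆ₐ[ℂ] F) (r : ℝ) (x : F) : σ (r • x) = r • σ x := by
  rw [← Complex.coe_smul, map_smul, Complex.coe_smul]

theorem norm_map' (σ : F ≃⋆ₐ[ℂ] F) (x : F) : ‖σ x‖ = ‖x‖ :=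
  NonUnitalStarAlgHom.norm_map σ.toStarAlgHom σ.injective x

/-- Numeric facts about the weights. -/
theorem weight_facts {η : ℝ} (h0 : 0 < η) (h1 : η ≤ 1 / 16) (W g : ℕ) :
    (1 - η) ^ g * (10 + (g : ℝ)) ≤ (10 + 2 / η) * (1 - η / 2) ^ g ∧
      ∑ k ∈ range (2 * W + 1), (1 - η) ^ Nat.dist k W ≤ 2 / η ∧
      ∑ k ∈ range (2 * W + 1), (1 - η / 2) ^ Nat.dist k W ≤ 4 / η := by
  refine ⟨?_, (sum_pow_dist_le (by linarith) (by linarith) W).trans_eq (by rw [sub_sub_cancel]),
    (sum_pow_dist_le (by linarith) (by linarith) W).trans_eq (by rw [sub_sub_cancel]; field_simp; ring)⟩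
  set s := 1 - η / 2 with hs
  have hs0 : 0 ≤ s := by linarith
  have hb : s ^ g * (1 + g * (η / 2)) ≤ 1 := by
    refine (mul_le_mul_of_nonneg_left (one_add_mul_le_pow (by linarith) g) (by positivity)).trans ?_
    rw [← mul_pow]
    exact pow_le_one₀ (mul_nonneg hs0 (by linarith)) (by nlinarith)
  have hsg : s ^ g ≤ 1 := pow_le_one₀ hs0 (by linarith)
  have hg : s ^ g * (g : ℝ) ≤ 2 / η := by
    rw [le_div_iff₀ h0]; nlinarith [pow_nonneg hs0 g]
  calc (1 - η) ^ g * (10 + (g : ℝ)) ≤ (s * s) ^ g * (10 + (g : ℝ)) :=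
        mul_le_mul_of_nonneg_right (pow_le_pow_left₀ (by linarith) (by nlinarith) g) (by positivity)
    _ = (s ^ g * 10 + s ^ g * g) * s ^ g := by rw [mul_pow]; ring
    _ ≤ (10 + 2 / η) * s ^ g :=
        mul_le_mul_of_nonneg_right (by linarith [mul_le_mul_of_nonneg_right hsg (by norm_num : (0 : ℝ) ≤ 10)])
          (by positivity)

namespace Bank

variable {σ : F ≃⋆ₐ[ℂ] F} {L : ℕ} {qm qp εr : ℝ} (b : Bank σ L qm qp εr) (η : ℝ) (W : ℕ)

/-- The increment in block `l`, moved by `σ^(k - W)`. -/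
def inc (k : ℕ) (l : Fin L) : F := σ^[k] ((σ.symm : F → F)^[W] (σ (b.y l) - b.y l))

theorem inc_succ (k : ℕ) (l : Fin L) : b.inc W (k + 1) l = σ (b.inc W k l) :=
  Function.iterate_succ_apply' _ _ _

theorem inc_self (l : Fin L) : b.inc W W l = σ (b.y l) - b.y l :=
  Function.LeftInverse.iterate (fun x => σ.apply_symm_apply x) W _

theorem inc_props (k : ℕ) (l : Fin L) : b.Src l (b.inc W k l) ∧ ‖b.inc W k l‖ ≤ εr := by
  induction k with
  | zero =>
    unfold inc
    simp only [Function.iterate_zero, id]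
    induction W with
    | zero => exact ⟨(b.src_y l).map.1.sub (b.src_y l), b.almost l⟩
    | succ W ih =>
      rw [Function.iterate_succ_apply']
      exact ⟨ih.1.map.2, by rw [norm_map']; exact ih.2⟩
  | succ k ih =>
    rw [inc_succ]
    exact ⟨ih.1.map.1, by rw [norm_map']; exact ih.2⟩

/-- The increments squared at position `k` of the window. -/
def X (k : ℕ) : F := ∑ l, b.inc W k l * star (b.inc W k l)

theorem X_nonneg (k : ℕ) : 0 ≤ b.X W k := sum_nonneg fun _ _ => mul_star_self_nonneg _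

theorem map_X (k : ℕ) : σ (b.X W k) = b.X W (k + 1) := by
  simp only [X, map_sum, map_mul, map_star, inc_succ]

/-- The weights. -/
def w (k : ℕ) : ℝ := (η ^ 2)⁻¹ * (1 - η) ^ Nat.dist k W

/-- The window sum. -/
def S : F := ∑ k ∈ range (2 * W + 1), w η W k • b.X W k

/-- The main combination. -/
def T : F := b.comb b.y

/-- The guard. -/
def D : F := 1 + b.T * star b.T + b.S η W

variable {η}

theorem w_nonneg (hη : η ≤ 1) (k : ℕ) : 0 ≤ w η W k := by
  have : 0 ≤ 1 - η := by linarith
  unfold w; positivity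

theorem S_nonneg (hη : η ≤ 1) : 0 ≤ b.S η W :=
  sum_nonneg fun k _ => smul_nonneg (w_nonneg W hη k) (b.X_nonneg W k)

theorem one_le_D (hη : η ≤ 1) : 1 ≤ b.D η W :=
  (le_add_of_nonneg_right (mul_star_self_nonneg b.T)).trans
    (le_add_of_nonneg_right (b.S_nonneg W hη))

theorem commute_G_D (j : Fin L) : Commute (b.G j) (b.D η W) := by
  have hc : ∀ l, Commute (b.G j) (b.c l) := fun l => commute_oth fun i _ => b.G_commute j i
  refine ((Commute.one_right _).add_right ?_).add_right ?_
  · exact b.commute_comb b.src_y hc fun l => (b.src_y l).commute_G j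
  · exact Commute.sum_right _ _ _ fun k _ => Commute.smul_right
      (Commute.sum_right _ _ _ fun l _ => (b.inc_props W k l).1.commute_G j) _

theorem D_mem : b.D η W ∈ Cl b.supp := by
  have hT : b.T ∈ Cl b.supp := b.comb_mem b.y_mem
  refine add_mem (add_mem (one_mem _) (mul_mem hT (star_mem hT))) (sum_mem fun k _ => ?_)
  refine Coin.smul_mem' (sum_mem fun l _ => ?_) _
  have := b.le_supp l (b.inc_props W k l).1.mem
  exact mul_mem this (star_mem this)

/-- `D⁻¹ T` has square zero. -/
theorem sq_zero (I : InvData (b.D η W)) : I.inv * b.T * (I.inv * b.T) = 0 := by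
  suffices b.T * (I.inv * b.T) = 0 by rw [mul_assoc, this, mul_zero]
  have hG : ∀ j, Commute (b.G j) I.inv := fun j => I.commute_inv (b.commute_G_D W j)
  have key : ∀ l m, b.y l * I.inv * (b.c m * b.y m) = 0 := by
    intro l m
    rcases eq_or_ne l m with rfl | h
    · have hc : Commute (b.G l) (b.c l) := commute_oth fun i _ => b.G_commute l i
      calc b.y l * I.inv * (b.c l * b.y l) = b.y l * I.inv * (b.c l * (b.G l * b.y l)) := by
            rw [(b.src_y l).G_mul]
        _ = b.y l * (I.inv * b.G l) * (b.c l * b.y l) := by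
            rw [← mul_assoc (b.c l), ← hc.eq]; simp only [mul_assoc]
        _ = 0 := by rw [← (hG l).eq, ← mul_assoc (b.y l), (b.src_y l).mul_G, zero_mul, zero_mul]
    · rw [← mul_assoc (b.y l * I.inv), c,
        mul_oth_eq_zero b.G_commute h (by
          rw [mul_assoc, ← (hG l).eq, ← mul_assoc, (b.src_y l).mul_G, zero_mul]), zero_mul]
  simp only [T, comb, mul_sum, sum_mul]
  refine sum_eq_zero fun m _ => sum_eq_zero fun l _ => ?_
  rw [mul_assoc (b.c l), ← mul_assoc (b.y l), key, mul_zero]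

theorem norm_le_one (hη : η ≤ 1) (I : InvData (b.D η W)) : ‖I.inv * b.T‖ ≤ 1 := by
  refine (I.norm_mul_le zero_le_one ?_).trans_eq Real.sqrt_one
  rw [one_smul]
  exact (le_add_of_nonneg_left zero_le_one).trans (le_add_of_nonneg_right (b.S_nonneg W hη))

/-- `D⁻¹ T` is almost fixed. -/
theorem almost_fixed (hη : 0 < η) (hη1 : η ≤ 1 / 16) (hεr : εr = η ^ 3) (hW : 0 < W)
    (hWL : (1 - η) ^ W * L ≤ 1) (I : InvData (b.D η W)) :
    ‖σ (I.inv * b.T) - I.inv * b.T‖ ≤ 24 * η := by
  have hη' : η ≤ 1 := by linarith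
  set r := 1 - η with hr
  set D' := σ (b.D η W)
  let I' : InvData D' :=
    ⟨σ I.inv, by rw [← map_mul, I.left, map_one], by rw [← map_mul, I.right, map_one],
      by rw [← map_star, I.star_inv], by rw [norm_map']; exact I.norm_inv⟩
  set S' := ∑ k ∈ range (2 * W + 1), w η W k • b.X W (k + 1)
  have hS' : 0 ≤ S' := sum_nonneg fun k _ => smul_nonneg (w_nonneg W hη' k) (b.X_nonneg W _)
  have eD' : D' = 1 + σ b.T * star (σ b.T) + S' := by
    simp only [D', S', D, S, map_add, map_one, map_mul, map_star, map_sum, map_real_smul, map_X]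
  have hdT : σ b.T - b.T = b.comb (fun l => b.inc W W l) := by
    simp only [T, comb, map_sum, map_mul, b.c_fix, inc_self, mul_sub, sum_sub_distrib]
  have hle : (σ b.T - b.T) * star (σ b.T - b.T) ≤ b.X W W := by
    rw [hdT]; exact b.comb_mul_star_le fun l => (b.inc_props W W l).1
  have hX : (η ^ 2)⁻¹ • b.X W W ≤ b.S η W := by
    refine le_of_eq_of_le ?_ (single_le_sum (f := fun k => w η W k • b.X W k)
      (fun k _ => smul_nonneg (w_nonneg W hη' k) (b.X_nonneg W k)) (mem_range.2 (by omega : W < _)))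
    simp [w, Nat.dist_self]
  have hX' : ((η ^ 2)⁻¹ * r) • b.X W W ≤ S' := by
    refine le_of_eq_of_le ?_ (single_le_sum (f := fun k => w η W k • b.X W (k + 1))
      (fun k _ => smul_nonneg (w_nonneg W hη' k) (b.X_nonneg W _))
      (mem_range.2 (by omega : W - 1 < _)))
    rw [w, Nat.dist_eq_sub_of_le (by omega), show W - (W - 1) = 1 by omega, pow_one,
      Nat.sub_add_cancel hW]
  have hSD : b.S η W ≤ b.D η W :=
    le_add_of_nonneg_left (add_nonneg zero_le_one (mul_star_self_nonneg b.T))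
  have hSD' : S' ≤ D' := by
    rw [eD']; exact le_add_of_nonneg_left (add_nonneg zero_le_one (mul_star_self_nonneg _))
  have h1D' : 1 ≤ D' := by
    rw [eD']
    exact (le_add_of_nonneg_right (mul_star_self_nonneg _)).trans (le_add_of_nonneg_right hS')
  have scale : ∀ {a c : ℝ} {x y : F}, 0 < a → a • x ≤ y → 0 ≤ y → a⁻¹ ≤ c → x ≤ c • y := by
    intro a c x y ha h hy hc
    have := smul_le_smul_of_nonneg_left h (inv_nonneg.2 ha.le)
    rw [smul_smul, inv_mul_cancel₀ ha.ne', one_smul] at this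
    exact this.trans (smul_le_smul_of_nonneg_right hc hy)
  have hd : (σ b.T - b.T) * star (σ b.T - b.T) ≤ (4 * η) ^ 2 • b.D η W :=
    hle.trans (scale (by positivity) (hX.trans hSD) (zero_le_one.trans (b.one_le_D W hη'))
      (by rw [inv_inv]; nlinarith))
  have hd' : (σ b.T - b.T) * star (σ b.T - b.T) ≤ (4 * η) ^ 2 • D' :=
    hle.trans (scale (mul_pos (by positivity) (by linarith)) (hX'.trans hSD')
      (zero_le_one.trans h1D') (by
        rw [mul_inv, inv_inv, ← div_eq_mul_inv, div_le_iff₀ (by linarith)]; nlinarith))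
  set κ := η / r with hκdef
  have hκ : 0 ≤ κ := div_nonneg hη.le (by linarith)
  have hκ2 : κ ≤ 2 * η := by rw [hκdef, div_le_iff₀ (by linarith)]; nlinarith
  have hstep : ∀ k, |w η W k - w η W (k + 1)| ≤ κ * w η W (k + 1) := by
    intro k
    have hp : ∀ j, r ^ j * η ≤ κ * r ^ j := fun j => by
      rw [mul_comm]
      refine mul_le_mul_of_nonneg_right ?_ (pow_nonneg (by linarith) j)
      rw [hκdef, le_div_iff₀ (by linarith)]; nlinarith
    rw [w, w, ← hr, ← mul_sub, abs_mul, abs_of_nonneg (by positivity : (0 : ℝ) ≤ (η ^ 2)⁻¹),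
      mul_left_comm κ]
    refine mul_le_mul_of_nonneg_left ?_ (by positivity)
    rcases Nat.lt_or_ge k W with h | h
    · rw [Nat.dist_eq_sub_of_le h.le, Nat.dist_eq_sub_of_le (by omega : k + 1 ≤ W),
        show W - k = W - (k + 1) + 1 by omega, pow_succ]
      set j := W - (k + 1)
      rw [show r ^ j * r - r ^ j = -(r ^ j * η) by rw [hr]; ring, abs_neg,
        abs_of_nonneg (mul_nonneg (pow_nonneg (by linarith) j) hη.le)]
      exact hp j
    · rw [Nat.dist_eq_sub_of_le_right h, Nat.dist_eq_sub_of_le_right (by omega : W ≤ k + 1),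
        show k + 1 - W = k - W + 1 by omega, pow_succ]
      set j := k - W
      rw [show r ^ j - r ^ j * r = r ^ j * η by rw [hr]; ring,
        abs_of_nonneg (mul_nonneg (pow_nonneg (by linarith) j) hη.le),
        show κ * (r ^ j * r) = η / r * r * r ^ j by rw [hκdef]; ring,
        div_mul_cancel₀ _ (by linarith : r ≠ 0), mul_comm]
  have hbd : ∀ k, k = 0 ∨ k = 2 * W + 1 → ‖w η W (k - 1) • b.X W k‖ ≤ η := by
    intro k hk
    have hdist : Nat.dist (k - 1) W = W := by
      rcases hk with rfl | rfl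
      · simp [Nat.dist]
      · rw [Nat.dist_eq_sub_of_le_right (by omega)]; omega
    have hXn : ‖b.X W k‖ ≤ L * εr ^ 2 := by
      refine (norm_sum_le _ _).trans ((sum_le_sum fun l _ => ?_).trans_eq
        (by rw [sum_const, card_univ, Fintype.card_fin, nsmul_eq_mul]))
      rw [CStarRing.norm_self_mul_star, ← sq]
      exact pow_le_pow_left₀ (norm_nonneg _) (b.inc_props W k l).2 2
    rw [norm_smul, Real.norm_of_nonneg (w_nonneg W hη' _)]
    refine (mul_le_mul_of_nonneg_left hXn (w_nonneg W hη' _)).trans ?_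
    rw [w, hdist, ← hr, hεr, show (η ^ 2)⁻¹ * r ^ W * (L * (η ^ 3) ^ 2) = η ^ 4 * (r ^ W * L) by
      field_simp]
    refine (mul_le_mul_of_nonneg_left hWL (by positivity)).trans ?_
    rw [mul_one]
    calc η ^ 4 ≤ η ^ 1 := pow_le_pow_of_le_one hη.le hη' (by norm_num)
      _ = η := pow_one η
  obtain ⟨h2, h1⟩ := window_shift (b.X W) (w η W) (2 * W) (b.X_nonneg W) (w_nonneg W hη') hκ hstep hbd
  set C := κ • b.S η W + algebraMap ℝ F η
  have hC : 0 ≤ C := add_nonneg (smul_nonneg hκ (b.S_nonneg W hη')) (by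
    rw [Algebra.algebraMap_eq_smul_one]; exact smul_nonneg hη.le zero_le_one)
  have hCD : C ≤ (4 * η) • b.D η W := by
    refine (add_le_add (smul_le_smul_of_nonneg_left hSD hκ)
      (le_of_eq_of_le (Algebra.algebraMap_eq_smul_one η)
        (smul_le_smul_of_nonneg_left (b.one_le_D W hη') hη.le))).trans ?_
    rw [← add_smul]
    exact smul_le_smul_of_nonneg_right (by linarith) (zero_le_one.trans (b.one_le_D W hη'))
  have hCD' : C ≤ (4 * η) • D' := by
    have h := smul_le_smul_of_nonneg_left h1 hκ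
    rw [smul_add] at h
    have h3 : C ≤ (κ • S' + algebraMap ℝ F η) + κ • C := by
      refine (add_le_add h le_rfl).trans_eq ?_
      simp only [C, S', S]; abel
    have h4 : (1 - κ) • C ≤ (κ + η) • D' := by
      rw [sub_smul, one_smul, sub_le_iff_le_add]
      refine h3.trans (add_le_add ?_ le_rfl)
      rw [add_smul]
      exact add_le_add (smul_le_smul_of_nonneg_left hSD' hκ)
        (le_of_eq_of_le (Algebra.algebraMap_eq_smul_one η) (smul_le_smul_of_nonneg_left h1D' hη.le))
    have hk1 : 0 < 1 - κ := by linarith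
    have := smul_le_smul_of_nonneg_left h4 (inv_nonneg.2 hk1.le)
    rw [smul_smul, smul_smul, inv_mul_cancel₀ hk1.ne', one_smul] at this
    refine this.trans (smul_le_smul_of_nonneg_right ?_ (zero_le_one.trans h1D'))
    rw [inv_mul_le_iff₀ hk1]; nlinarith
  have := norm_guard_sub I I' (by linarith : 0 ≤ 4 * η) (rfl : b.D η W = _) eD'
    (b.S_nonneg W hη') hS' hd hd' hC hCD hCD' h1 h2
  rw [map_mul]
  exact this.trans (le_of_eq (by ring))

end Bank

end

end Vale.Agent.P095.Amen.Square
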