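import Mathlib

/-!
# P095 Square: the guard `D = 1 + T T* + S` makes `D⁻¹ T` almost fixed
-/

namespace Vale.Agent.P095.Amen.Square

open Finset

noncomputable section

variable {F : Type} [CStarAlgebra F] [PartialOrder F] [StarOrderedRing F]

omit [PartialOrder F] [StarOrderedRing F] in
lemma norm_le_sq_of_le {v : F} {k : ℝ} (h : ‖star v * v‖ ≤ k) : ‖v‖ ≤ √k := by
  rw [CStarRing.norm_star_mul_self] at h
  calc ‖v‖ = √(‖v‖ * ‖v‖) := (Real.sqrt_mul_self (norm_nonneg v)).symm
    _ ≤ √k := Real.sqrt_le_sqrt h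

lemma norm_le_one_of_sq_le {x : F} (hx : IsSelfAdjoint x) (h : x * x ≤ x) : ‖x‖ ≤ 1 := by
  have h2 := CStarAlgebra.norm_le_norm_of_nonneg_of_le hx.mul_self_nonneg h
  have h3 : ‖x * x‖ = ‖x‖ * ‖x‖ := by
    conv_lhs => enter [1, 1]; rw [← hx.star_eq]
    exact CStarRing.norm_star_mul_self
  rw [h3] at h2
  rcases (norm_nonneg x).lt_or_eq with hp | hp
  · nlinarith
  · rw [← hp]; norm_num

/-- An invertible `D ≥ 1` with its inverse. -/
structure InvData (D : F) where
  inv : F
  left : inv * D = 1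
  right : D * inv = 1
  star_inv : star inv = inv
  norm_inv : ‖inv‖ ≤ 1

lemma exists_invData {D : F} (hD : 1 ≤ D) : Nonempty (InvData D) := by
  have hD0 : 0 ≤ D := zero_le_one.trans hD
  obtain ⟨u, rfl⟩ := CStarAlgebra.isUnit_of_le (1 : F) hD
  have hs : star ((u⁻¹ : Fˣ) : F) = ((u⁻¹ : Fˣ) : F) := by
    apply left_inv_eq_right_inv (a := (u : F))
    · have : star ((u : F) * ((u⁻¹ : Fˣ) : F)) = 1 := by rw [Units.mul_inv, star_one]
      rwa [star_mul, (IsSelfAdjoint.of_nonneg hD0).star_eq] at this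
    · exact Units.mul_inv u
  refine ⟨⟨_, Units.inv_mul u, Units.mul_inv u, hs, norm_le_one_of_sq_le hs ?_⟩⟩
  have h := star_right_conjugate_le_conjugate hD ((u⁻¹ : Fˣ) : F)
  rwa [hs, mul_one, Units.inv_mul, one_mul] at h

namespace InvData

variable {D : F} (I : InvData D)

lemma norm_mul_le {v : F} {k : ℝ} (hk : 0 ≤ k) (h : v * star v ≤ k • D) :
    ‖I.inv * v‖ ≤ √k := by
  rw [← norm_star, star_mul, I.star_inv]
  refine norm_le_sq_of_le ?_
  rw [show star (star v * I.inv) * (star v * I.inv) = I.inv * (v * star v) * I.inv by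
    rw [star_mul, star_star, I.star_inv]; simp only [mul_assoc]]
  have h1 := star_right_conjugate_le_conjugate h I.inv
  rw [I.star_inv, mul_smul_comm, smul_mul_assoc, I.left, one_mul] at h1
  have h0 : 0 ≤ I.inv * (v * star v) * I.inv := by
    have := star_right_conjugate_nonneg (mul_star_self_nonneg v) I.inv
    rwa [I.star_inv] at this
  refine (CStarAlgebra.norm_le_norm_of_nonneg_of_le h0 h1).trans ?_
  rw [norm_smul, Real.norm_of_nonneg hk]
  exact mul_le_of_le_one_right hk I.norm_inv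

lemma norm_star_T {T : F} (hT : T * star T ≤ D) : ‖star T * I.inv * T‖ ≤ 1 := by
  refine norm_le_one_of_sq_le (x := star T * I.inv * T) ?_ ?_
  · rw [IsSelfAdjoint, star_mul, star_mul, star_star, I.star_inv, mul_assoc]
  · have h := star_right_conjugate_le_conjugate hT (star T * I.inv)
    rw [show star T * I.inv * D = star T by rw [mul_assoc, I.left, mul_one]] at h
    simpa only [star_mul, star_star, I.star_inv, mul_assoc] using h

lemma norm_mid {T v : F} {k : ℝ} (hk : 0 ≤ k) (hT : T * star T ≤ D) (h : v * star v ≤ k • D) :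
    ‖star v * (I.inv * T)‖ ≤ √k := by
  refine norm_le_sq_of_le ?_
  rw [show star (star v * (I.inv * T)) * (star v * (I.inv * T)) =
      star T * I.inv * (v * star v) * (I.inv * T) by
    rw [star_mul, star_mul, star_star, I.star_inv]; simp only [mul_assoc]]
  have hs : star (I.inv * T) = star T * I.inv := by rw [star_mul, I.star_inv]
  have h0 : 0 ≤ star T * I.inv * (v * star v) * (I.inv * T) := by
    rw [← hs]; exact star_left_conjugate_nonneg (mul_star_self_nonneg v) _
  have h1 := star_left_conjugate_le_conjugate h (I.inv * T)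
  rw [hs, mul_smul_comm, smul_mul_assoc] at h1
  refine (CStarAlgebra.norm_le_norm_of_nonneg_of_le h0 h1).trans ?_
  rw [norm_smul, Real.norm_of_nonneg hk]
  refine mul_le_of_le_one_right hk ?_
  rw [show star T * I.inv * D * (I.inv * T) = star T * I.inv * T by
    rw [mul_assoc (star T) I.inv D, I.left, mul_one]; simp only [mul_assoc]]
  exact I.norm_star_T hT

end InvData

lemma norm_mul_mul_le {D D' T B : F} (I : InvData D) (I' : InvData D') {k : ℝ} (hk : 0 ≤ k)
    (hT : T * star T ≤ D) (hB : 0 ≤ B) (h : B ≤ k • D) (h' : B ≤ k • D') :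
    ‖I'.inv * B * (I.inv * T)‖ ≤ k := by
  obtain ⟨R, hR⟩ : ∃ R : F, B = R * star R := by
    refine ⟨CFC.sqrt B, ?_⟩
    rw [(IsSelfAdjoint.of_nonneg (CFC.sqrt_nonneg B)).star_eq, CFC.sqrt_mul_sqrt_self B hB]
  subst hR
  calc ‖I'.inv * (R * star R) * (I.inv * T)‖ = ‖(I'.inv * R) * (star R * (I.inv * T))‖ := by
        simp only [mul_assoc]
    _ ≤ ‖I'.inv * R‖ * ‖star R * (I.inv * T)‖ := _root_.norm_mul_le _ _
    _ ≤ √k * √k := mul_le_mul (I'.norm_mul_le hk h') (I.norm_mid hk hT h) (norm_nonneg _)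
        (Real.sqrt_nonneg _)
    _ = k := Real.mul_self_sqrt hk

/-- Two guards which differ by a small relative amount. -/
lemma norm_guard_sub {T T' S S' D D' : F} (I : InvData D) (I' : InvData D') {k : ℝ}
    (hk : 0 ≤ k) (eD : D = 1 + T * star T + S) (eD' : D' = 1 + T' * star T' + S')
    (hS : 0 ≤ S) (hS' : 0 ≤ S')
    (hd : (T' - T) * star (T' - T) ≤ k ^ 2 • D) (hd' : (T' - T) * star (T' - T) ≤ k ^ 2 • D')
    {C : F} (hC : 0 ≤ C) (hCD : C ≤ k • D) (hCD' : C ≤ k • D') (h1 : S ≤ S' + C)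
    (h2 : S' ≤ S + C) : ‖I'.inv * T' - I.inv * T‖ ≤ 6 * k := by
  have hT : T * star T ≤ D := by
    rw [eD]; exact (le_add_of_nonneg_left zero_le_one).trans (le_add_of_nonneg_right hS)
  have hT' : T' * star T' ≤ D' := by
    rw [eD']; exact (le_add_of_nonneg_left zero_le_one).trans (le_add_of_nonneg_right hS')
  have e : I'.inv * T' - I.inv * T = I'.inv * (T' - T)
      - I'.inv * T' * (star (T' - T) * (I.inv * T))
      - I'.inv * (T' - T) * (star T * I.inv * T)
      + (I'.inv * (S - S' + C) * (I.inv * T) - I'.inv * C * (I.inv * T)) := by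
    have e1 : I'.inv * (D - D') * (I.inv * T) = I'.inv * T - I.inv * T := by
      calc I'.inv * (D - D') * (I.inv * T)
          = I'.inv * (D * I.inv) * T - (I'.inv * D') * (I.inv * T) := by noncomm_ring
        _ = I'.inv * T - I.inv * T := by rw [I.right, I'.left, mul_one, one_mul]
    have e2 : D - D' = S - S' - T' * star (T' - T) - (T' - T) * star T := by
      rw [eD, eD', star_sub]; noncomm_ring
    rw [e2] at e1
    calc I'.inv * T' - I.inv * T = I'.inv * (T' - T) + (I'.inv * T - I.inv * T) := by noncomm_ring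
      _ = _ := by rw [← e1]; noncomm_ring
  have hk2 : √(k ^ 2) = k := Real.sqrt_sq hk
  have t1 : ‖I'.inv * (T' - T)‖ ≤ k := (I'.norm_mul_le (sq_nonneg k) hd').trans_eq hk2
  have t2 : ‖I'.inv * T' * (star (T' - T) * (I.inv * T))‖ ≤ 1 * k := by
    refine (_root_.norm_mul_le _ _).trans (mul_le_mul ?_ ?_ (norm_nonneg _) zero_le_one)
    · exact (I'.norm_mul_le zero_le_one (by rwa [one_smul])).trans_eq Real.sqrt_one
    · exact (I.norm_mid (sq_nonneg k) hT hd).trans_eq hk2
  have t3 : ‖I'.inv * (T' - T) * (star T * I.inv * T)‖ ≤ k * 1 :=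
    (_root_.norm_mul_le _ _).trans (mul_le_mul t1 (I.norm_star_T hT) (norm_nonneg _) hk)
  have hB0 : 0 ≤ S - S' + C := by
    rw [show S - S' + C = S + C - S' by abel]; exact sub_nonneg.2 h2
  have hB : S - S' + C ≤ C + C := by
    rw [show S - S' + C = S + C - S' by abel, sub_le_iff_le_add]
    calc S + C ≤ S' + C + C := add_le_add h1 le_rfl
      _ = C + C + S' := by abel
  have t4 : ‖I'.inv * (S - S' + C) * (I.inv * T)‖ ≤ 2 * k := by
    refine norm_mul_mul_le I I' (by linarith) hT hB0 (hB.trans ?_) (hB.trans ?_)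
    · rw [two_mul, add_smul]; exact add_le_add hCD hCD
    · rw [two_mul, add_smul]; exact add_le_add hCD' hCD'
  have t5 : ‖I'.inv * C * (I.inv * T)‖ ≤ k := norm_mul_mul_le I I' hk hT hC hCD hCD'
  rw [e]
  refine (norm_add_le _ _).trans ?_
  refine (add_le_add ((norm_sub_le _ _).trans (add_le_add (norm_sub_le _ _) le_rfl))
    (norm_sub_le _ _)).trans ?_
  linarith

/-- A weighted sum over a window moves little. -/
lemma window_shift (X : ℕ → F) (w : ℕ → ℝ) (n : ℕ) {b κ : ℝ} (hX : ∀ k, 0 ≤ X k)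
    (hw : ∀ k, 0 ≤ w k) (hκ : 0 ≤ κ) (hstep : ∀ k, |w k - w (k + 1)| ≤ κ * w (k + 1))
    (hn : ∀ k, k = 0 ∨ k = n + 1 → ‖w (k - 1) • X k‖ ≤ b) :
    let S := ∑ k ∈ range (n + 1), w k • X k
    let S' := ∑ k ∈ range (n + 1), w k • X (k + 1)
    S' ≤ S + (κ • S + algebraMap ℝ F b) ∧ S ≤ S' + (κ • S + algebraMap ℝ F b) := by
  intro S S'
  have hb : 0 ≤ b := (norm_nonneg _).trans (hn 0 (Or.inl rfl))
  have hbd : ∀ k, k = 0 ∨ k = n + 1 → w (k - 1) • X k ≤ algebraMap ℝ F b := fun k hk =>
    (IsSelfAdjoint.of_nonneg (smul_nonneg (hw _) (hX k))).le_algebraMap_norm_self.trans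
      (by
        rw [Algebra.algebraMap_eq_smul_one, Algebra.algebraMap_eq_smul_one]
        exact smul_le_smul_of_nonneg_right (hn k hk) zero_le_one)
  have eS : S = ∑ k ∈ range n, w (k + 1) • X (k + 1) + w 0 • X 0 := sum_range_succ' _ _
  have eS' : S' = ∑ k ∈ range n, w k • X (k + 1) + w n • X (n + 1) := sum_range_succ _ _
  have hκS : κ • ∑ k ∈ range n, w (k + 1) • X (k + 1) ≤ κ • S := by
    refine smul_le_smul_of_nonneg_left ?_ hκ
    rw [eS]; exact le_add_of_nonneg_right (smul_nonneg (hw 0) (hX 0))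
  constructor
  · have h1 : ∑ k ∈ range n, w k • X (k + 1) ≤ ∑ k ∈ range n, w (k + 1) • X (k + 1)
        + κ • ∑ k ∈ range n, w (k + 1) • X (k + 1) := by
      rw [smul_sum, ← sum_add_distrib]
      refine sum_le_sum fun k _ => ?_
      rw [smul_smul, ← add_smul]
      refine smul_le_smul_of_nonneg_right ?_ (hX _)
      linarith [(abs_le.1 (hstep k)).2]
    calc S' ≤ ∑ k ∈ range n, w (k + 1) • X (k + 1) + κ • S + algebraMap ℝ F b :=
          eS'.le.trans (add_le_add (h1.trans (add_le_add le_rfl hκS)) (hbd (n + 1) (Or.inr rfl)))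
      _ ≤ S + (κ • S + algebraMap ℝ F b) := by
          rw [← add_assoc]
          refine add_le_add (add_le_add ?_ le_rfl) le_rfl
          exact (le_add_of_nonneg_right (smul_nonneg (hw 0) (hX 0))).trans eS.ge
  · have h1 : ∑ k ∈ range n, w (k + 1) • X (k + 1) ≤ ∑ k ∈ range n, w k • X (k + 1)
        + κ • ∑ k ∈ range n, w (k + 1) • X (k + 1) := by
      rw [smul_sum, ← sum_add_distrib]
      refine sum_le_sum fun k _ => ?_
      rw [smul_smul, ← add_smul]
      refine smul_le_smul_of_nonneg_right ?_ (hX _)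
      linarith [(abs_le.1 (hstep k)).1]
    calc S ≤ ∑ k ∈ range n, w k • X (k + 1) + κ • S + algebraMap ℝ F b :=
          eS.le.trans (add_le_add (h1.trans (add_le_add le_rfl hκS)) (hbd 0 (Or.inl rfl)))
      _ ≤ S' + (κ • S + algebraMap ℝ F b) := by
          rw [← add_assoc]
          refine add_le_add (add_le_add ?_ le_rfl) le_rfl
          rw [eS']; exact le_add_of_nonneg_right (smul_nonneg (hw _) (hX _))

end

end Vale.Agent.P095.Amen.Square
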