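import Vale.Agent.P095.Amen.Square.Elem

/-!
# P095 Square: the values of `T T*` from below
-/

namespace Vale.Agent.P095.Amen.Square

open Vale.Agent.P101.KR Finset
open scoped CStarAlgebra

noncomputable section

set_option linter.unusedSectionVars false

variable {F : Type} [CStarAlgebra F] [PartialOrder F] [StarOrderedRing F]

/-- The value of a product of all blocks but one. -/
theorem dim_oth {L : ℕ} {t : Fin L → Set F} {U : Set F} (d : Dim (Cl U))
    (hU : ∀ j, Cl (t j) ≤ Cl U)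
    (hc : ∀ i j, i ≠ j → ∀ x ∈ Cl (t i), ∀ w ∈ Cl (t j), Commute x w) {f : Fin L → F}
    (hf : ∀ j, f j ∈ Cl (t j)) (h0 : ∀ j, 0 ≤ f j) {a : ℝ} (ha : 0 ≤ a) (ha1 : a ≤ 1)
    (hb : ∀ j, ∀ d' : Dim (Cl (t j)), a ≤ d'.d (f j)) (l : Fin L) : a ^ L ≤ d.d (oth f l) := by
  set u : ∀ j, Cl (t j) := fun j => if j = l then 1 else ⟨f j, hf j⟩
  have hu : ∀ j, (u j : F) = if j = l then 1 else f j := fun j => by
    simp only [u]; split_ifs <;> rfl
  have hu0 : ∀ j, 0 ≤ (u j : F) := fun j => by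
    rw [hu]; split_ifs
    exacts [zero_le_one, h0 j]
  have hprod := (dim_list_prod d (fun j => (Cl (t j)).subtype) (fun j x => hU j x.2)
    (fun i j hij x y => hc i j hij _ x.2 _ y.2) u hu0 (fun _ => a) (fun _ => 1) (fun _ => ha)
    (fun _ => ha1) (fun j d' => ⟨by
      rw [hu]; split_ifs
      · rw [d'.one]; exact ha1
      · exact hb j d', d'.le_one (posIn (u j).2 (hu0 j))⟩) (List.finRange L)
    (List.nodup_finRange L)).2.1
  rw [show ((List.finRange L).map fun _ => a).prod = a ^ L by simp] at hprod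
  refine hprod.trans_eq ?_
  congr 1
  rw [oth]
  congr 1
  exact List.map_congr_left fun j _ => hu j

namespace Bank

variable {σ : F ≃⋆ₐ[ℂ] F} {L : ℕ} {qm qp εr : ℝ} (b : Bank σ L qm qp εr)

/-- The block square `y y*`. -/
def Y (l : Fin L) : F := b.y l * star (b.y l)

/-- The exclusion inside block `l`. -/
def K (l : Fin L) : F := cut (1 / 2) (1 - b.P l) * (1 - bump (1 / 8) (b.Y l))

/-- The part of block `l` alone. -/
def part (l : Fin L) : F := cut (1 / 4) (b.Y l) * oth b.K l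

theorem Y_nonneg (l : Fin L) : 0 ≤ b.Y l := mul_star_self_nonneg _

theorem Y_mem (l : Fin L) : b.Y l ∈ Cl (b.t l) := mul_mem (b.y_mem l) (star_mem (b.y_mem l))

theorem Y_mul_P (l : Fin L) : b.Y l * b.P l = 0 := by
  have h := congrArg star (b.P_y l)
  rw [star_mul, (IsSelfAdjoint.of_nonneg (b.P_pos l).1).star_eq, star_zero] at h
  rw [Y, mul_assoc, h, mul_zero]

theorem P_mul_Y (l : Fin L) : b.P l * b.Y l = 0 := by rw [Y, ← mul_assoc, b.P_y, zero_mul]

theorem commute_Y_P (l : Fin L) : Commute (b.Y l) (b.P l) := by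
  show _ * _ = _ * _
  rw [Y_mul_P, P_mul_Y]

theorem commute_Y_sub (l : Fin L) : Commute (b.Y l) (1 - b.P l) :=
  (Commute.one_right _).sub_right (b.commute_Y_P l)

theorem K_mem (l : Fin L) : b.K l ∈ Cl (b.t l) :=
  mul_mem (Coin.cfc_mem' (isClosed_Cl _) (sub_mem (one_mem _) (b.P_mem l)) _)
    (sub_mem (one_mem _) (Coin.cfc_mem' (isClosed_Cl _) (b.Y_mem l) _))

theorem commute_factors (l : Fin L) (f g : ℝ → ℝ) :
    Commute (cfc f (1 - b.P l)) (cfc g (b.Y l)) :=
  ((b.commute_Y_sub l).cfc_real g).symm.cfc_real f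

theorem K_nonneg (l : Fin L) : 0 ≤ b.K l :=
  ((Commute.one_right _).sub_right (b.commute_factors l _ _)).mul_nonneg (Coin.cut_nonneg' _ _)
    (sub_nonneg.2 (bump_le_one _ _))

theorem K_commute (i j : Fin L) : Commute (b.K i) (b.K j) := by
  rcases eq_or_ne i j with rfl | h
  · exact Commute.refl _
  · exact b.comm i j h _ (b.K_mem i) _ (b.K_mem j)

theorem cutY_mem (l : Fin L) (δ : ℝ) : cut δ (b.Y l) ∈ Cl (b.t l) :=
  Coin.cfc_mem' (isClosed_Cl _) (b.Y_mem l) _

theorem commute_Y_K (i j : Fin L) : Commute (b.Y i) (b.K j) := by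
  rcases eq_or_ne i j with rfl | h
  · exact ((b.commute_Y_sub i).symm.cfc_real _).symm.mul_right
      ((Commute.one_right _).sub_right ((Commute.refl (b.Y i)).cfc_real _).symm)
  · exact b.comm i j h _ (b.Y_mem i) _ (b.K_mem j)

theorem commute_G_K (i j : Fin L) : Commute (b.G i) (b.K j) := by
  rcases eq_or_ne i j with rfl | h
  · exact (((Commute.refl (1 - b.P i)).cfc_real _).symm.cfc_real _).mul_right
      ((Commute.one_right _).sub_right (b.commute_factors i _ _))
  · exact b.comm i j h _ (b.G_mem i) _ (b.K_mem j)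

theorem G_mul_K (l : Fin L) : b.G l * b.K l = b.K l := by
  rw [G, K, ← mul_assoc, bump_mul_cut (by norm_num) (by norm_num)]

theorem cut_mul_K (l : Fin L) : cut (1 / 4) (b.Y l) * b.K l = 0 := by
  have h : cut (1 / 4) (b.Y l) * bump (1 / 8) (b.Y l) = cut (1 / 4) (b.Y l) := by
    conv_rhs => rw [← bump_mul_cut (η := 1 / 8) (δ := 1 / 4) (by norm_num) (by norm_num) (b.Y l)]
    exact ((Commute.refl (b.Y l)).cfc_real _).symm.cfc_real _ |>.eq
  rw [K, ((Commute.one_right _).sub_right (b.commute_factors l _ _) :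
      Commute (cut (1 / 2) (1 - b.P l)) (1 - bump (1 / 8) (b.Y l))).eq, ← mul_assoc, mul_sub,
    mul_one, h, sub_self, zero_mul]

theorem dim_K (l : Fin L) (d : Dim (Cl (b.t l))) : 1 - 2 * qp ≤ d.d (b.K l) := by
  set B := bump (1 / 8) (b.Y l)
  have hB0 : 0 ≤ B := bump_nonneg _ _
  have hBm : B ∈ Cl (b.t l) := Coin.cfc_mem' (isClosed_Cl _) (b.Y_mem l) _
  have h1 : (1 : F) ≤ b.K l + b.P l + B + (1 / 2 : ℝ) • (1 : F) := by
    have hc : Commute (cut (1 / 2) (1 - b.P l) + (1 / 2 : ℝ) • 1 - (1 - b.P l)) (1 - B) :=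
      (Commute.one_right _).sub_right (((b.commute_factors l _ _).add_left
        ((Commute.one_left _).smul_left _)).sub_left ((b.commute_Y_sub l).cfc_real _).symm)
    have h := hc.mul_nonneg (sub_nonneg.2 (Coin.le_cut_add (b.sa_one_sub_P l) _))
      (sub_nonneg.2 (bump_le_one _ _))
    have hPB : b.P l * B = 0 := by
      have h3 : B * b.P l = 0 :=
        cfc_mul_eq_zero (IsSelfAdjoint.of_nonneg (b.Y_nonneg l)) (b.Y_mul_P l) (continuous_bump _)
          (bump_apply_zero (by norm_num) (by norm_num))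
      exact ((b.commute_Y_P l).cfc_real _).eq.symm.trans h3
    have e : (cut (1 / 2) (1 - b.P l) + (1 / 2 : ℝ) • 1 - (1 - b.P l)) * (1 - B) =
        b.K l + b.P l + B + (1 / 2 : ℝ) • (1 : F) - 1 - b.P l * B - (1 / 2 : ℝ) • B := by
      simp only [K, sub_mul, add_mul, mul_sub, one_mul, mul_one, smul_mul_assoc, B]
      abel
    rw [e, hPB, sub_zero, sub_nonneg] at h
    exact sub_nonneg.1 ((smul_nonneg (by norm_num) hB0).trans h)
  have h2 := Coin.one_le_dim_sum (isClosed_Cl _) d ![b.K l, b.P l, B] (fun _ => 1)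
    (fun j => by fin_cases j <;> simp [b.K_nonneg, (b.P_pos l).1, hB0])
    (fun j => by fin_cases j <;> simp [b.K_mem, b.P_mem, hBm]) (fun _ => one_mem _)
    (r := 1 / 2) (by norm_num) (h1.trans_eq (by simp [Fin.sum_univ_three]))
  simp only [Fin.sum_univ_three, Matrix.cons_val_zero, Matrix.cons_val_one, Matrix.cons_val] at h2
  have hB : d.d B ≤ qp :=
    (d.mono_smul (posIn hBm hB0) (posIn (b.Y_mem l) (b.Y_nonneg l)) (by norm_num : (0 : ℝ) ≤ 2 / (1 / 8))
      (Coin.sqLe_iff.2 (bump_le_smul (by norm_num) (b.Y_nonneg l)))).trans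
      ((b.src_y l).dim_le (b.norm_y l) d)
  linarith [b.dim_P l d]

theorem dim_cutY (l : Fin L) (d : Dim (Cl (b.t l))) : qm ≤ d.d (cut (1 / 4) (b.Y l)) := by
  rw [Y, ← d.flip_cut (b.y_mem l) (by norm_num : (0 : ℝ) < 1 / 4)]
  refine (b.dim_R l d).trans ?_
  set v := cut (1 / 4) (star (b.y l) * b.y l)
  have hR := (b.R_star l).star_eq
  have hRR : 0 ≤ b.R l * b.R l := (b.R_star l).mul_self_nonneg
  refine dim_le_conj d hRR (mul_mem (b.R_mem l) (b.R_mem l)) (Coin.cut_nonneg' _ _)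
    (Coin.cfc_mem' (isClosed_Cl _) (mul_mem (star_mem (b.y_mem l)) (b.y_mem l)) _)
    (Coin.smul_mem' (b.R_mem l) 2) (x := (2 : ℝ) • b.R l) ?_
  have h := (b.low l).trans ((star_left_conjugate_le_conjugate
    (Coin.le_cut_add (IsSelfAdjoint.star_mul_self (b.y l)) (1 / 4)) (b.R l)).trans_eq' (by rw [hR]))
  rw [hR, mul_add, add_mul, mul_smul_comm, mul_one, smul_mul_assoc] at h
  rw [Coin.star_smul_conj, hR]
  have h3 : (1 / 4 : ℝ) • (b.R l * b.R l) ≤ b.R l * v * b.R l := by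
    refine le_of_add_le_add_right (a := (1 / 4 : ℝ) • (b.R l * b.R l)) (le_of_eq_of_le ?_ h)
    rw [← add_smul]; norm_num
  calc b.R l * b.R l = (2 * 2 : ℝ) • ((1 / 4 : ℝ) • (b.R l * b.R l)) := by
        rw [smul_smul]; norm_num
    _ ≤ _ := smul_le_smul_of_nonneg_left h3 (by norm_num)

theorem commute_Y_Y (i j : Fin L) : Commute (b.Y i) (b.Y j) := by
  rcases eq_or_ne i j with rfl | h
  · exact Commute.refl _
  · exact b.comm i j h _ (b.Y_mem i) _ (b.Y_mem j)

theorem commute_part {a : F} (hY : ∀ i, Commute a (b.Y i)) (hK : ∀ i, Commute a (b.K i))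
    (l : Fin L) : Commute a (b.part l) :=
  ((hY l).symm.cfc_real _).symm.mul_right (commute_oth fun i _ => hK i)

theorem part_nonneg (l : Fin L) : 0 ≤ b.part l :=
  (commute_oth fun i _ => (b.commute_Y_K l i).cfc_real _).mul_nonneg (Coin.cut_nonneg' _ _)
    (oth_nonneg b.K_commute b.K_nonneg)

theorem part_mem (l : Fin L) : b.part l ∈ Cl b.supp :=
  mul_mem (b.le_supp l (b.cutY_mem l _)) (oth_mem fun i => b.le_supp i (b.K_mem i))

theorem part_mul (l m : Fin L) (h : l ≠ m) : b.part l * b.part m = 0 := by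
  have hc : Commute (oth b.K l) (b.part m) :=
    b.commute_part (fun i => (commute_oth fun j _ => b.commute_Y_K i j).symm)
      (fun i => (commute_oth fun j _ => b.K_commute i j).symm) m
  calc b.part l * b.part m = cut (1 / 4) (b.Y l) * (oth b.K l * b.part m) := by
        rw [part, mul_assoc]
    _ = cut (1 / 4) (b.Y l) * b.part m * oth b.K l := by rw [hc.eq, ← mul_assoc]
    _ = 0 := by
      rw [part, ((commute_oth fun i _ => (b.commute_Y_K m i).cfc_real _) :
          Commute (cut (1 / 4) (b.Y m)) (oth b.K m)).eq, ← mul_assoc,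
        mul_oth_eq_zero b.K_commute h (b.cut_mul_K l), zero_mul, zero_mul]

theorem quarter_smul_part_le (m : Fin L) :
    (1 / 4 : ℝ) • b.part m ≤ b.T * star b.T * b.part m := by
  have hGY : ∀ i j, Commute (b.G i) (b.Y j) := fun i j => (b.src_y j).commute_G i
  have hcp : ∀ l, Commute (b.c l) (b.part m) := fun l =>
    b.commute_part (fun i => (commute_oth fun j _ => (hGY j i).symm).symm)
      (fun i => (commute_oth fun j _ => (b.commute_G_K j i).symm).symm) m
  have hYp : ∀ l, Commute (b.Y l) (b.part m) := fun l =>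
    b.commute_part (b.commute_Y_Y l) (b.commute_Y_K l) m
  have e : b.c m * b.part m = b.part m := by
    rw [part, ← mul_assoc, ← (b.commute_c (b.cutY_mem m _)).eq, mul_assoc, c,
      oth_mul_oth fun i j h => (b.commute_G_K j i).symm]
    simp only [b.G_mul_K]
  rw [T, b.comb_mul_star b.src_y, sum_mul]
  refine le_trans ?_ (single_le_sum (f := fun l => b.c l * b.Y l * b.c l * b.part m)
    (fun l _ => (((hcp l).mul_left (hYp l)).mul_left (hcp l)).mul_nonneg
      (IsSelfAdjoint.conjugate_nonneg (b.Y_nonneg l) (IsSelfAdjoint.of_nonneg (b.c_pos l).1))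
      (b.part_nonneg m)) (mem_univ m))
  show _ ≤ b.c m * b.Y m * b.c m * b.part m
  rw [mul_assoc, e, mul_assoc, (hYp m).eq, ← mul_assoc, e, ← (hYp m).eq, ← sub_nonneg]
  have hc : (1 / 4 : ℝ) • cut (1 / 4) (b.Y m) + cut (1 / 4) (b.Y m) * cut (1 / 4) (b.Y m) =
      b.Y m * cut (1 / 4) (b.Y m) := by
    have hsa := IsSelfAdjoint.of_nonneg (b.Y_nonneg m)
    conv_rhs => enter [1]; rw [← cfc_id' ℝ (b.Y m)]
    rw [cut, ← cfc_smul .., ← cfc_mul .., ← cfc_add .., ← cfc_mul ..]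
    refine cfc_congr fun t _ => ?_
    rw [smul_eq_mul]
    rcases le_total t (1 / 4) with ht | ht
    · rw [max_eq_right (by linarith : t - 1 / 4 ≤ 0)]; ring
    · rw [max_eq_left (by linarith : 0 ≤ t - 1 / 4)]; ring
  rw [part, ← mul_assoc (b.Y m), ← hc, add_mul, smul_mul_assoc, add_sub_cancel_left]
  have hco : Commute (cut (1 / 4) (b.Y m)) (oth b.K m) :=
    commute_oth fun i _ => (b.commute_Y_K m i).cfc_real _
  exact (hco.mul_left hco).mul_nonneg (isSelfAdjoint_cut _ _).mul_self_nonneg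
    (oth_nonneg b.K_commute b.K_nonneg)

/-- `T T*` is large in every state. -/
theorem dim_lower (hqp : 0 ≤ qp) (hqp1 : 2 * qp ≤ 1) (hqm : 0 ≤ qm)
    (hlow : 1 / 16 ≤ L * (qm * (1 - 2 * qp) ^ L)) (d : Dim (Cl b.supp)) :
    1 / 16 ≤ d.d (cut (1 / 8) (b.T * star b.T)) := by
  set Φ := ∑ l, b.part l
  have hpart : ∀ l, qm * (1 - 2 * qp) ^ L ≤ d.d (b.part l) := fun l => by
    have hw : oth b.K l ∈ Cl b.supp := oth_mem fun i => b.le_supp i (b.K_mem i)
    have h1 := (dim_hom_mul d (Cl (b.t l)).subtype (fun x => b.le_supp l x.2)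
      (u := ⟨_, b.cutY_mem l (1 / 4)⟩) (Coin.cut_nonneg' _ _) (Coin.cut_nonneg' _ _)
      (oth_nonneg b.K_commute b.K_nonneg) hw
      (fun x => commute_oth fun i hi => b.comm l i hi.symm _ x.2 _ (b.K_mem i)) hqm
      (fun d' => ⟨b.dim_cutY l d', d'.le_one (posIn (b.cutY_mem l _) (Coin.cut_nonneg' _ _))⟩)).1
    exact (mul_le_mul_of_nonneg_left (dim_oth d b.le_supp b.comm b.K_mem b.K_nonneg (by linarith)
      (by linarith) b.dim_K l) hqm).trans h1
  obtain ⟨hΦ, hsum⟩ := d.sum_eq univ (fun l => posIn (b.part_mem l) (b.part_nonneg l))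
    fun i _ j _ hij => b.part_mul i j hij
  have hT : b.T ∈ Cl b.supp := b.comb_mem b.y_mem
  set A := b.T * star b.T
  have hA : 0 ≤ A := mul_star_self_nonneg _
  have hΦ0 : 0 ≤ Φ := sum_nonneg fun l _ => b.part_nonneg l
  have hAΦ : Commute A Φ := Commute.sum_right _ _ _ fun m _ => (b.commute_comb b.src_y
    (fun l => (b.commute_part (fun i => (commute_oth fun j _ => ((b.src_y i).commute_G j).symm).symm)
      (fun i => (commute_oth fun j _ => (b.commute_G_K j i).symm).symm) m).symm)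
    (fun l => (b.commute_part (b.commute_Y_Y l) (b.commute_Y_K l) m).symm)).symm
  have hcΦ : Commute (cut (1 / 8) A) Φ := hAΦ.cfc_real _
  have h1 : (1 / 8 : ℝ) • Φ ≤ ‖Φ‖ • cut (1 / 8) A := by
    have h2 : (1 / 4 : ℝ) • Φ ≤ A * Φ := by
      rw [smul_sum, mul_sum]; exact sum_le_sum fun l _ => b.quarter_smul_part_le l
    have h3 := (((hcΦ).add_left ((Commute.one_left Φ).smul_left (1 / 8 : ℝ))).sub_left hAΦ).mul_nonneg
      (sub_nonneg.2 (Coin.le_cut_add (IsSelfAdjoint.of_nonneg hA) (1 / 8))) hΦ0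
    rw [sub_mul, add_mul, smul_mul_assoc, one_mul, sub_nonneg] at h3
    have h4 : (1 / 8 : ℝ) • Φ ≤ cut (1 / 8) A * Φ := by
      refine le_of_add_le_add_right (a := (1 / 8 : ℝ) • Φ) (le_of_eq_of_le ?_ (h2.trans h3))
      rw [← add_smul]; norm_num
    refine h4.trans ?_
    have h5 := (((Commute.one_left (cut (1 / 8) A)).smul_left ‖Φ‖).sub_left hcΦ.symm).mul_nonneg
      (sub_nonneg.2 (hΦ0.isSelfAdjoint.le_algebraMap_norm_self.trans_eq
        (Algebra.algebraMap_eq_smul_one _))) (Coin.cut_nonneg' _ _)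
    rw [sub_mul, smul_mul_assoc, one_mul, sub_nonneg, ← hcΦ.eq] at h5
    exact h5
  have h8 : Φ ≤ (8 * ‖Φ‖) • cut (1 / 8) A := by
    have := smul_le_smul_of_nonneg_left h1 (by norm_num : (0 : ℝ) ≤ 8)
    rw [smul_smul, smul_smul] at this
    norm_num at this
    exact this
  calc (1 : ℝ) / 16 ≤ L * (qm * (1 - 2 * qp) ^ L) := hlow
    _ = ∑ _l : Fin L, qm * (1 - 2 * qp) ^ L := by simp
    _ ≤ ∑ l, d.d (b.part l) := sum_le_sum fun l _ => hpart l
    _ = d.d Φ := hsum.symm
    _ ≤ d.d (cut (1 / 8) A) :=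
      d.mono_smul hΦ (Dim.cut_posIn (posIn (mul_mem hT (star_mem hT)) hA) _) (by positivity)
        (Coin.sqLe_iff.2 h8)

end Bank

end

end Vale.Agent.P095.Amen.Square
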