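import Vale.Agent.P095.Amen.Square.Full

/-!
# P095 Square: invariant countable sets, and products over the positions of one block
-/

namespace Vale.Agent.P095.Amen.Square

open Vale.Agent.P101.KR Finset
open scoped CStarAlgebra

noncomputable section

set_option linter.unusedSectionVars false

variable {F : Type} [CStarAlgebra F]

/-- The orbit of a set. -/
def orbit (σ : F ≃⋆ₐ[ℂ] F) (s : Set F) : Set F :=
  ⋃ k : ℤ, ⇑((EquivLike.toEquiv σ : Equiv.Perm F) ^ k) '' s

theorem countable_orbit (σ : F ≃⋆ₐ[ℂ] F) {s : Set F} (hs : s.Countable) :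
    (orbit σ s).Countable := Set.countable_iUnion fun _ => hs.image _

theorem subset_orbit (σ : F ≃⋆ₐ[ℂ] F) (s : Set F) : s ⊆ orbit σ s := fun x hx =>
  Set.mem_iUnion.2 ⟨0, x, hx, by simp⟩

theorem image_orbit (σ : F ≃⋆ₐ[ℂ] F) (s : Set F) : σ '' orbit σ s = orbit σ s := by
  have h : ∀ k : ℤ, σ '' (⇑((EquivLike.toEquiv σ : Equiv.Perm F) ^ k) '' s) =
      ⇑((EquivLike.toEquiv σ : Equiv.Perm F) ^ (1 + k)) '' s := fun k => by
    rw [Set.image_image, zpow_one_add]; rfl
  simp only [orbit, Set.image_iUnion, h]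
  exact (Equiv.addLeft (1 : ℤ)).iSup_comp
    (g := fun k => ⇑((EquivLike.toEquiv σ : Equiv.Perm F) ^ k) '' s)

theorem hasCopies_of_setting {σ : F ≃⋆ₐ[ℂ] F} (h : Setting σ) : HasCopies F := by
  intro s hs m
  obtain ⟨E⟩ := h.copies (orbit σ s) (countable_orbit σ hs) (image_orbit σ s)
  exact ⟨⟨fun i => (E.hom (i : ℕ)).comp (StarSubalgebra.inclusion (Cl_mono (subset_orbit σ s))),
    fun i j hij a b => E.comm i j (fun e => hij (Fin.ext e)) _ _⟩⟩

theorem fullW_of_subset {t : Set F} {u : F} {K : ℕ} {y : Fin K → F} (hy : Set.range y ⊆ t)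
    (h : ∑ i, star (y i) * u * y i = 1) : FullW (Cl t) u :=
  ⟨K, y, fun i => subset_Cl t (hy ⟨i, rfl⟩), h⟩

variable {n : ℕ} {t S : Set F}

/-- The product of one element over all positions. -/
def pi (φ : Fin n → Cl t →⋆ₐ[ℂ] F) (u : Cl t) : F := (List.ofFn fun i => φ i u).prod

variable {φ : Fin n → Cl t →⋆ₐ[ℂ] F}

theorem pi_eq (u : Cl t) : pi φ u = ((List.finRange n).map fun i => φ i u).prod := by
  rw [pi, List.ofFn_eq_map]

theorem pi_mem (hφ : ∀ i x, φ i x ∈ Cl S) (u : Cl t) : pi φ u ∈ Cl S :=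
  list_prod_mem fun x hx => by
    obtain ⟨i, rfl⟩ := List.mem_ofFn.1 hx
    exact hφ i u

theorem pi_fixed {σ : F ≃⋆ₐ[ℂ] F} (hσ : ∀ i (x : Cl t), σ x = x → σ (φ i x) = φ i x) {u : Cl t}
    (hu : σ u = u) : σ (pi φ u) = pi φ u := by
  rw [pi_eq, map_list_prod, List.map_map]
  congr 1
  exact List.map_congr_left fun i _ => hσ i u hu

variable (hc : ∀ i j, i ≠ j → ∀ x y, Commute (φ i x) (φ j y))
include hc

theorem pi_mul (u v : Cl t) : pi φ u * pi φ v = pi φ (u * v) := by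
  rw [pi_eq, pi_eq, pi_eq, prod_map_mul' (List.nodup_finRange n)
    fun i _ j _ h => hc i j h _ _]
  simp only [map_mul]

variable [PartialOrder F] [StarOrderedRing F]

theorem pi_pos {u : Cl t} (h0 : 0 ≤ (u : F)) : 0 ≤ pi φ u := by
  rw [pi_eq]
  refine list_prod_nonneg (fun x hx => ?_) (List.pairwise_map.2 (List.pairwise_of_forall fun i j => ?_))
  · obtain ⟨i, -, rfl⟩ := List.mem_map.1 hx
    exact map_nonneg' _ h0
  · rcases eq_or_ne i j with rfl | h
    exacts [Commute.refl _, hc i j h _ _]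

theorem pi_le_one {u : Cl t} (h0 : 0 ≤ (u : F)) (h1 : (u : F) ≤ 1) : pi φ u ≤ 1 := by
  rw [pi_eq]
  refine list_prod_le_one (fun x hx => ?_) (List.pairwise_map.2 (List.pairwise_of_forall fun i j => ?_))
  · obtain ⟨i, -, rfl⟩ := List.mem_map.1 hx
    refine ⟨map_nonneg' _ h0, sub_nonneg.1 ?_⟩
    have := map_nonneg' (φ i) (u := 1 - u) (by simpa using h1)
    rwa [map_sub, map_one] at this
  · rcases eq_or_ne i j with rfl | h
    exacts [Commute.refl _, hc i j h _ _]

/-- The value of a product over the positions. -/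
theorem dim_pi (hφ : ∀ i x, φ i x ∈ Cl S) (d : Dim (Cl S)) {u : Cl t} (hu : 0 ≤ (u : F)) {a b : ℝ}
    (ha : 0 ≤ a) (hab : a ≤ b) (hb : ∀ d' : Dim (Cl t), a ≤ d'.d u ∧ d'.d u ≤ b) :
    a ^ n ≤ d.d (pi φ u) ∧ d.d (pi φ u) ≤ b ^ n := by
  have h := (dim_list_prod d φ hφ hc (fun _ => u) (fun _ => hu) (fun _ => a) (fun _ => b)
    (fun _ => ha) (fun _ => hab) (fun _ => hb) (List.finRange n) (List.nodup_finRange n)).2
  rw [← pi_eq, show ((List.finRange n).map fun _ => a).prod = a ^ n by simp,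
    show ((List.finRange n).map fun _ => b).prod = b ^ n by simp] at h
  exact h

theorem fullW_pi (hφ : ∀ i x, φ i x ∈ Cl S) {u : Cl t} (h : FullW (Cl t) (u : F)) :
    FullW (Cl S) (pi φ u) := by
  rw [pi_eq]
  refine fullW_list_prod (fun i => (φ i).range) (fun i x hx => ?_) (fun i j hij x hx y hy => ?_)
    (fun i => φ i u) (fun i => ⟨u, rfl⟩) (fun i => h.map (B := (φ i).range) (φ i) fun x => ⟨x, rfl⟩) _
    (List.nodup_finRange n)
  · obtain ⟨x, rfl⟩ := hx
    exact hφ i x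
  · obtain ⟨x, rfl⟩ := hx
    obtain ⟨y, rfl⟩ := hy
    exact hc i j hij x y

omit [PartialOrder F] [StarOrderedRing F] in
/-- A product kills what one of its factors kills. -/
theorem pi_mul_eq_zero (i : Fin n) {u v : Cl t} (h : v * u = 0) (h' : u * v = 0) :
    pi φ u * φ i v = 0 := by
  have h1 : φ i v * pi φ u = 0 := by
    refine mul_list_prod_eq_zero (g := φ i u) (List.mem_ofFn.2 ⟨i, rfl⟩) (fun x hx => ?_)
      (by rw [← map_mul, h, map_zero])
    obtain ⟨j, rfl⟩ := List.mem_ofFn.1 hx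
    rcases eq_or_ne i j with rfl | hj
    exacts [Commute.refl _, hc i j hj _ _]
  have h2 : Commute (φ i v) (pi φ u) := commute_list_prod fun x hx => by
    obtain ⟨j, rfl⟩ := List.mem_ofFn.1 hx
    rcases eq_or_ne i j with rfl | hj
    · show φ i v * φ i u = φ i u * φ i v
      rw [← map_mul, ← map_mul, h, h']
    · exact hc i j hj _ _
  rw [← h2.eq, h1]

end

end Vale.Agent.P095.Amen.Square
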