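import Vale.Agent.P095.Amen.Square.Lower

/-!
# P095 Square: the guard is small outside a rare set
-/

namespace Vale.Agent.P095.Amen.Square

open Vale.Agent.P101.KR Finset
open scoped CStarAlgebra

noncomputable section

set_option linter.unusedSectionVars false

variable {F : Type} [CStarAlgebra F] [PartialOrder F] [StarOrderedRing F]

theorem conj_smul_one (r : ℝ) (hr : 0 ≤ r) (v : F) :
    star (Real.sqrt r • (1 : F)) * v * (Real.sqrt r • (1 : F)) = r • v := by
  rw [Coin.star_smul_conj, star_one, one_mul, mul_one, Real.mul_self_sqrt hr]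

namespace Bank

variable {σ : F ≃⋆ₐ[ℂ] F} {L : ℕ} {qm qp εr : ℝ} (b : Bank σ L qm qp εr)

/-- The symmetric sum of the squares of one source per block. -/
def sym (v : Fin L → F) (k : ℕ) : F :=
  esym ((List.finRange L).map fun l => v l * star (v l)) k

variable {b}

theorem commute_src {v : Fin L → F} (hv : ∀ l, b.Src l (v l)) (i j : Fin L) :
    Commute (v i * star (v i)) (v j * star (v j)) := by
  rcases eq_or_ne i j with rfl | h
  · exact Commute.refl _
  · exact b.comm i j h _ (mul_mem (hv i).mem (star_mem (hv i).mem)) _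
      (mul_mem (hv j).mem (star_mem (hv j).mem))

theorem sym_props {v : Fin L → F} (hv : ∀ l, b.Src l (v l)) (k : ℕ) :
    0 ≤ sym v k ∧ sym v k ∈ Cl b.supp :=
  ⟨esym_nonneg (fun x hx => by
      obtain ⟨l, -, rfl⟩ := List.mem_map.1 hx
      exact mul_star_self_nonneg _)
    (List.pairwise_map.2 (List.pairwise_of_forall fun i j => commute_src hv i j)) k,
  esym_mem (fun x hx => by
    obtain ⟨l, -, rfl⟩ := List.mem_map.1 hx
    exact b.le_supp l (mul_mem (hv l).mem (star_mem (hv l).mem))) k⟩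

theorem sum_src_le {v : Fin L → F} (hv : ∀ l, b.Src l (v l)) (h1 : ∀ l, ‖v l‖ ≤ 1) (k : ℕ) :
    ∑ l, v l * star (v l) ≤ (k : ℝ) • (1 : F) + (L : ℝ) • sym v (k + 1) := by
  have h := sum_le_esym (l := (List.finRange L).map fun l => v l * star (v l))
    (fun x hx => by
      obtain ⟨l, -, rfl⟩ := List.mem_map.1 hx
      exact ⟨mul_star_self_nonneg _, (mul_star_self_le_one (h1 l)).trans_eq (by simp)⟩)
    (List.pairwise_map.2 (List.pairwise_of_forall fun i j => commute_src hv i j)) k
  rw [List.length_map, List.length_finRange, ← Fin.sum_univ_def] at h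
  exact h

theorem dim_sym {v : Fin L → F} (hv : ∀ l, b.Src l (v l)) (h1 : ∀ l, ‖v l‖ ≤ 1) (hqp : 0 ≤ qp)
    (hLq : (L : ℝ) * qp ≤ 1 / 6) (d : Dim (Cl b.supp)) (k : ℕ) :
    d.d (sym v k) ≤ (1 / 6) ^ k := by
  refine (dim_esym d (fun l => ⟨_, mul_mem (hv l).mem (star_mem (hv l).mem)⟩)
    (fun l => mul_star_self_nonneg _) b.le_supp b.comm hqp (fun l d' => (hv l).dim_le (h1 l) d')
    (List.finRange L) (List.nodup_finRange L) k).trans ?_
  rw [List.length_finRange]
  exact pow_le_pow_left₀ (by positivity) hLq k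

variable (b) (W : ℕ)

/-- The increments scaled to contractions. -/
def unit' (k : ℕ) (l : Fin L) : F := εr⁻¹ • b.inc W k l

theorem unit'_props (hεr : 0 < εr) (k : ℕ) (l : Fin L) :
    b.Src l (b.unit' W k l) ∧ ‖b.unit' W k l‖ ≤ 1 := by
  refine ⟨(b.inc_props W k l).1.smul _, ?_⟩
  rw [unit', norm_smul, Real.norm_of_nonneg (inv_nonneg.2 hεr.le), inv_mul_le_iff₀ hεr, mul_one]
  exact (b.inc_props W k l).2

theorem X_eq (hεr : 0 < εr) (k : ℕ) :
    b.X W k = εr ^ 2 • ∑ l, b.unit' W k l * star (b.unit' W k l) := by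
  rw [X, smul_sum]
  refine sum_congr rfl fun l _ => ?_
  rw [unit', star_smul, star_trivial εr⁻¹, smul_mul_assoc, mul_smul_comm, smul_smul, smul_smul,
    show εr ^ 2 * εr⁻¹ * εr⁻¹ = 1 by field_simp, one_smul]

variable {η : ℝ}

/-- The guard exceeds `12` only on a set which every state makes tiny. -/
theorem dim_cut_D (hη : 0 < η) (hη1 : η ≤ 1 / 16) (hεr : εr = η ^ 3) (hqp : 0 ≤ qp)
    (hLq : (L : ℝ) * qp ≤ 1 / 6) (d : Dim (Cl b.supp)) :
    d.d (cut 12 (b.D η W)) ≤ 1 / 80 := by
  have hη' : η ≤ 1 := by linarith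
  have he0 : 0 < εr := by rw [hεr]; positivity
  set g : Fin (2 * W + 1) → ℕ := fun k => Nat.dist k W
  set a : Fin (2 * W + 1) → ℝ := fun k => w η W k * εr ^ 2
  have ha : ∀ k, 0 ≤ a k := fun k => mul_nonneg (w_nonneg W hη' _) (sq_nonneg _)
  set E0 := sym b.y (10 + 1)
  set E : Fin (2 * W + 1) → F := fun k => sym (b.unit' W k) (10 + g k + 1)
  have hT : b.T * star b.T ≤ (10 : ℝ) • (1 : F) + (L : ℝ) • E0 :=
    (b.comb_mul_star_le b.src_y).trans
      ((sum_src_le b.src_y b.norm_y 10).trans_eq (by norm_num [E0]))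
  have hS : b.S η W ≤ (∑ k, a k * (10 + (g k : ℝ))) • (1 : F) + ∑ k, (a k * L) • E k := by
    rw [S, sum_range fun k => w η W k • b.X W k, sum_smul, ← sum_add_distrib]
    refine sum_le_sum fun k _ => ?_
    rw [b.X_eq W he0, smul_smul]
    refine (smul_le_smul_of_nonneg_left (sum_src_le (fun l => (b.unit'_props W he0 k l).1)
      (fun l => (b.unit'_props W he0 k l).2) (10 + g k)) (ha k)).trans_eq ?_
    rw [smul_add, smul_smul, smul_smul, Nat.cast_add, Nat.cast_ofNat]
  have hc : ∑ k, a k * (10 + (g k : ℝ)) ≤ 1 / 2 := by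
    obtain ⟨-, -, h4⟩ := weight_facts hη hη1 W 0
    calc ∑ k, a k * (10 + (g k : ℝ))
        = η ^ 4 * ∑ k : Fin (2 * W + 1), (1 - η) ^ g k * (10 + (g k : ℝ)) := by
          rw [mul_sum]
          refine sum_congr rfl fun k _ => ?_
          simp only [a, w, hεr, g]
          field_simp
      _ ≤ η ^ 4 * ((10 + 2 / η) * (4 / η)) := by
          refine mul_le_mul_of_nonneg_left ((sum_le_sum fun k _ =>
            (weight_facts hη hη1 W (g k)).1).trans ?_) (by positivity)
          rw [← mul_sum]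
          exact mul_le_mul_of_nonneg_left
            (le_of_eq_of_le (sum_range fun k => (1 - η / 2) ^ Nat.dist k W).symm h4) (by positivity)
      _ = 40 * η ^ 3 + 8 * η ^ 2 := by field_simp; ring
      _ ≤ 40 * (1 / 16) ^ 3 + 8 * (1 / 16) ^ 2 :=
          add_le_add (mul_le_mul_of_nonneg_left (pow_le_pow_left₀ hη.le hη1 3) (by norm_num))
            (mul_le_mul_of_nonneg_left (pow_le_pow_left₀ hη.le hη1 2) (by norm_num))
      _ ≤ 1 / 2 := by norm_num
  set v : Fin (2 * W + 1 + 1) → F := Fin.cons E0 E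
  set x : Fin (2 * W + 1 + 1) → F :=
    Fin.cons (Real.sqrt L • (1 : F)) fun k => Real.sqrt (a k * L) • (1 : F)
  have hE : ∀ j, 0 ≤ v j ∧ v j ∈ Cl b.supp := fun j => by
    refine Fin.cases ?_ (fun k => ?_) j
    · simpa [v, E0] using sym_props b.src_y (10 + 1)
    · simpa [v, E] using sym_props (fun l => (b.unit'_props W he0 k l).1) (10 + g k + 1)
  have hsum : b.D η W ≤ (∑ j, star (x j) * v j * x j) + (23 / 2 : ℝ) • (1 : F) := by
    simp only [Fin.sum_univ_succ, x, v, Fin.cons_zero, Fin.cons_succ]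
    rw [← Fin.sum_univ_succ (f := fun k : Fin (2 * W + 1) =>
      star (Real.sqrt (a k * L) • (1 : F)) * E k * (Real.sqrt (a k * L) • (1 : F))),
      conj_smul_one _ (Nat.cast_nonneg L),
      sum_congr rfl (fun k _ => conj_smul_one _ (mul_nonneg (ha k) (Nat.cast_nonneg L)) (E k))]
    refine (add_le_add (add_le_add le_rfl hT) hS).trans ?_
    calc _ = (L : ℝ) • E0 + ∑ k, (a k * L) • E k +
          ((1 : ℝ) + 10 + ∑ k, a k * (10 + (g k : ℝ))) • (1 : F) := by
          rw [add_smul, add_smul, one_smul]; abel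
      _ ≤ _ := add_le_add le_rfl (smul_le_smul_of_nonneg_right (by linarith) zero_le_one)
  refine (Coin.dim_cut_le (isClosed_Cl _) d (IsSelfAdjoint.of_nonneg
    (zero_le_one.trans (b.one_le_D W hη'))) (b.D_mem W) v x (fun j => (hE j).1) (fun j => (hE j).2)
    (fun j => ?_) hsum (by norm_num)).trans ?_
  · refine Fin.cases ?_ (fun k => ?_) j <;>
      simp only [x, Fin.cons_zero, Fin.cons_succ] <;> exact Coin.smul_mem' (one_mem _) _
  rw [Fin.sum_univ_succ]
  simp only [v, Fin.cons_zero, Fin.cons_succ]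
  refine (add_le_add (dim_sym b.src_y b.norm_y hqp hLq d _) (sum_le_sum fun (k : Fin (2 * W + 1)) _ =>
    dim_sym (fun l => (b.unit'_props W he0 k l).1) (fun l => (b.unit'_props W he0 k l).2) hqp hLq d
      (10 + g k + 1))).trans ?_
  have h6 := sum_pow_dist_le (r := 1 / 6) (by norm_num) (by norm_num) W
  rw [sum_range fun k => (1 / 6 : ℝ) ^ Nat.dist k W] at h6
  rw [show (∑ k : Fin (2 * W + 1), (1 / 6 : ℝ) ^ (10 + g k + 1)) =
    (1 / 6) ^ 11 * ∑ k : Fin (2 * W + 1), (1 / 6 : ℝ) ^ g k by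
      rw [mul_sum]; exact sum_congr rfl fun k _ => by rw [← pow_add]; ring_nf]
  refine (add_le_add le_rfl (mul_le_mul_of_nonneg_left h6 (by positivity))).trans ?_
  norm_num

/-- `z*z` is large in every state. -/
theorem dim_star_mul_self (hη : 0 < η) (hη1 : η ≤ 1 / 16) (hεr : εr = η ^ 3) (hqp : 0 ≤ qp)
    (hqp1 : 2 * qp ≤ 1) (hqm : 0 ≤ qm) (hlow : 1 / 16 ≤ L * (qm * (1 - 2 * qp) ^ L))
    (hLq : (L : ℝ) * qp ≤ 1 / 6) (I : InvData (b.D η W)) (d : Dim (Cl b.supp)) :
    1 / 20 ≤ d.d (cut (1 / 36864) (star (I.inv * b.T) * (I.inv * b.T))) := by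
  have hη' : η ≤ 1 := by linarith
  set z := I.inv * b.T
  have hD1 : 1 ≤ (b.D η W) := b.one_le_D W hη'
  have hDsa : IsSelfAdjoint (b.D η W) := IsSelfAdjoint.of_nonneg (zero_le_one.trans hD1)
  have hDm : (b.D η W) ∈ Cl b.supp := b.D_mem W
  have hT : b.T ∈ Cl b.supp := b.comb_mem b.y_mem
  have hz : z ∈ Cl b.supp := mul_mem (I.inv_mem hD1 (isClosed_Cl _) hDm) hT
  have hTz : b.T = (b.D η W) * z := by rw [← mul_assoc, I.right, one_mul]
  set β := bump (2 * 24) (b.D η W)
  have hβ0 : 0 ≤ β := bump_nonneg _ _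
  have hβm : β ∈ Cl b.supp := Coin.cfc_mem' (isClosed_Cl _) hDm _
  have hβd : d.d β ≤ 1 / 80 := by
    refine (d.mono_smul (posIn hβm hβ0)
      (posIn (Coin.cfc_mem' (isClosed_Cl _) hDm _) (Coin.cut_nonneg' 12 (b.D η W)))
      (by norm_num : (0 : ℝ) ≤ 2 / 24) (Coin.sqLe_iff.2 ?_)).trans
      (b.dim_cut_D W hη hη1 hεr hqp hLq d)
    have := bump_le_cut (M := 24) (by norm_num) (b.D η W)
    rwa [show (24 : ℝ) / 2 = 12 by norm_num] at this
  have hDD : (b.D η W) * (b.D η W) ≤ (2304 : ℝ) • (1 : F) + (b.D η W) * β * (b.D η W) := by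
    have hspec := (algebraMap_le_iff_le_spectrum hDsa).1 ((map_one (algebraMap ℝ F)).trans_le hD1)
    have e1 : (b.D η W) * (b.D η W) = cfc (fun t : ℝ => t * t) (b.D η W) := by rw [cfc_mul .., cfc_id' ℝ (b.D η W)]
    have e2 : (b.D η W) * β * (b.D η W) = cfc (fun t : ℝ =>
        t * min 1 (max 0 ((t - 2 * 24 / 2) / (2 * 24 / 2))) * t) (b.D η W) := by
      rw [cfc_mul (fun t : ℝ => t * min 1 (max 0 ((t - 2 * 24 / 2) / (2 * 24 / 2)))) (fun t => t) (b.D η W)
        (continuous_id.mul (continuous_bump _)).continuousOn continuous_id.continuousOn,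
        cfc_mul (fun t : ℝ => t) _ (b.D η W) continuous_id.continuousOn (continuous_bump _).continuousOn,
        cfc_id' ℝ (b.D η W)]
      rfl
    rw [e1, e2, ← Algebra.algebraMap_eq_smul_one, ← cfc_const_add (2304 : ℝ)
      (fun t : ℝ => t * min 1 (max 0 ((t - 2 * 24 / 2) / (2 * 24 / 2))) * t) (b.D η W)
      ((continuous_id.mul (continuous_bump _)).mul continuous_id).continuousOn]
    refine cfc_mono (fun t ht => ?_) (continuous_id.mul continuous_id).continuousOn
      (continuous_const.add ((continuous_id.mul (continuous_bump _)).mul continuous_id)).continuousOn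
    have h1 := hspec t ht
    rcases le_total t 48 with h | h
    · have : 0 ≤ min 1 (max 0 ((t - 2 * 24 / 2) / (2 * 24 / 2))) :=
        le_min zero_le_one (le_max_left _ _)
      nlinarith
    · rw [bump_apply_one (by norm_num) (by norm_num; linarith)]
      linarith
  have hzz : star z * z ≤ cut (1 / 36864) (star z * z) + (1 / 36864 : ℝ) • (1 : F) :=
    Coin.le_cut_add (IsSelfAdjoint.star_mul_self z) _
  have hTT : star b.T * b.T ≤ (star (Real.sqrt 2304 • (1 : F)) * cut (1 / 36864) (star z * z) *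
      (Real.sqrt 2304 • (1 : F)) + star b.T * β * b.T) + (1 / 16 : ℝ) • (1 : F) := by
    rw [conj_smul_one _ (by norm_num)]
    have h := star_left_conjugate_le_conjugate hDD z
    rw [mul_add, add_mul, mul_smul_comm, mul_one, smul_mul_assoc] at h
    have key : ∀ u X : F, star ((b.D η W) * u) * X * ((b.D η W) * u) = star u * ((b.D η W) * X * (b.D η W)) * u := fun u X => by
      rw [star_mul, hDsa.star_eq]; simp only [mul_assoc]
    have e : star b.T * b.T = star z * ((b.D η W) * (b.D η W)) * z := by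
      have := key z 1
      rwa [mul_one, mul_one, ← hTz] at this
    have e' : star z * ((b.D η W) * β * (b.D η W)) * z = star b.T * β * b.T := by
      rw [← key z β, ← hTz]
    rw [e]
    refine h.trans ?_
    rw [e']
    refine (add_le_add (smul_le_smul_of_nonneg_left hzz (by norm_num : (0 : ℝ) ≤ 2304)) le_rfl).trans_eq ?_
    rw [smul_add, smul_smul]
    norm_num
    abel
  have hcut : 0 ≤ cut (1 / 36864) (star z * z) := Coin.cut_nonneg' _ _
  have h := Coin.dim_cut_le (isClosed_Cl _) d (IsSelfAdjoint.star_mul_self b.T)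
    (mul_mem (star_mem hT) hT) ![cut (1 / 36864) (star z * z), β]
    ![Real.sqrt 2304 • (1 : F), b.T]
    (fun j => by
      fin_cases j
      · exact hcut
      · exact hβ0)
    (fun j => by
      fin_cases j
      · exact Coin.cfc_mem' (isClosed_Cl _) (mul_mem (star_mem hz) hz) _
      · exact hβm)
    (fun j => by
      fin_cases j
      · exact Coin.smul_mem' (one_mem _) _
      · exact hT)
    (r := 1 / 16) (δ := 1 / 8)
    (hTT.trans_eq (by simp [Fin.sum_univ_two])) (by norm_num)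
  rw [d.flip_cut hT (by norm_num : (0 : ℝ) < 1 / 8)] at h
  have hlo := b.dim_lower hqp hqp1 hqm hlow d
  simp only [Fin.sum_univ_two, Matrix.cons_val_zero, Matrix.cons_val_one] at h
  linarith

end Bank

end

end Vale.Agent.P095.Amen.Square
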